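import Vale.Agent.P202.RingSide.Reduction

/-!
# P202 mixed characteristic: layers of the powers of a reduction

For an ideal `J` generated by `y` and a chain `J = I_0 ⊆ I_1 ⊆ ... ⊆ ⊤` with `I_{t+1} = I_t + (a t)`
and `m * a t ⊆ I_t`, the quotient `J^j / J^(j+1)` is cut into layers killed by `m`, each spanned by
`a t` times the monomials of degree `j` in `y`. An index `t` is good if these are always
independent over the residue field.
-/

noncomputable section

namespace Vale.Agent.P202.Mixed.BoxStep

open IsLocalRing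

variable {T : Type*} [CommRing T] {n : ℕ} (y : Fin n → T) (a : ℕ → T)

/-- The exponents of degree `j`. -/
def expo (n j : ℕ) : Finset (Fin n → ℕ) :=
  ((Finset.univ : Finset (Fin n)).finsuppAntidiag j).map
    ⟨fun f : Fin n →₀ ℕ => ⇑f, DFunLike.coe_injective⟩

theorem mem_expo {j : ℕ} {α : Fin n → ℕ} : α ∈ expo n j ↔ ∑ i, α i = j := by
  simp only [expo, Finset.mem_map, Finset.mem_finsuppAntidiag, Function.Embedding.coeFn_mk]
  constructor
  · rintro ⟨f, ⟨hf, -⟩, rfl⟩
    exact hf
  · intro h
    exact ⟨Finsupp.equivFunOnFinite.symm α, ⟨by simpa using h, Finset.subset_univ _⟩, by simp⟩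

theorem card_expo (n j : ℕ) : (expo n j).card = n.multichoose j := by
  simp [expo, Finset.card_finsuppAntidiag_nat_eq_multichoose]

/-- The monomial in `y` with exponent `α`. -/
def mon (α : Fin n → ℕ) : T := ∏ i, y i ^ α i

theorem mon_add (α β : Fin n → ℕ) : mon y (α + β) = mon y α * mon y β := by
  simp [mon, pow_add, Finset.prod_mul_distrib]

theorem mon_single (i : Fin n) : mon y (Pi.single i 1) = y i := by
  rw [mon, Finset.prod_eq_single i]
  · simp
  · intro k _ hk; simp [Pi.single_eq_of_ne hk]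
  · simp

theorem mon_mem_pow {j : ℕ} {α : Fin n → ℕ} (h : α ∈ expo n j) :
    mon y α ∈ Ideal.span (Set.range y) ^ j := by
  rw [← mem_expo.1 h, ← Finset.prod_pow_eq_pow_sum]
  exact Ideal.prod_mem_prod fun i _ => Ideal.pow_mem_pow (Ideal.subset_span (Set.mem_range_self i)) _

theorem span_pow_le (j : ℕ) :
    Ideal.span (Set.range y) ^ j ≤ Ideal.span (mon y '' (expo n j : Set (Fin n → ℕ))) := by
  induction j with
  | zero =>
    have h0 : (0 : Fin n → ℕ) ∈ expo n 0 := by simp [mem_expo]
    have h1 : (1 : T) ∈ Ideal.span (mon y '' (expo n 0 : Set (Fin n → ℕ))) :=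
      Ideal.subset_span ⟨0, h0, by simp [mon]⟩
    rw [(Ideal.eq_top_iff_one _).2 h1]
    exact le_top
  | succ j ih =>
    rw [pow_succ]
    refine (Ideal.mul_mono_left ih).trans ?_
    rw [Ideal.span_mul_span', Ideal.span_le]
    rintro _ ⟨_, ⟨α, hα, rfl⟩, _, ⟨i, rfl⟩, rfl⟩
    refine Ideal.subset_span ⟨α + Pi.single i 1, ?_, ?_⟩
    · simp [mem_expo, Finset.sum_add_distrib, mem_expo.1 hα]
    · rw [mon_add, mon_single]

/-- The `t`-th ideal of the chain. -/
def lay (t : ℕ) : Ideal T := Ideal.span (Set.range y) ⊔ Ideal.span (a '' Set.Iio t)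

theorem lay_succ (t : ℕ) : lay y a (t + 1) = lay y a t ⊔ Ideal.span {a t} := by
  have h : Set.Iio (t + 1) = insert t (Set.Iio t) := by ext; simp; try omega
  rw [lay, lay, h, Set.image_insert_eq, Ideal.span_insert]
  ac_rfl

/-- The filtration between `J^(j+1)` and `J^j`. -/
def fl (j t : ℕ) : Ideal T := lay y a t * Ideal.span (Set.range y) ^ j

theorem fl_zero (j : ℕ) : fl y a j 0 = Ideal.span (Set.range y) ^ (j + 1) := by
  simp [fl, lay, pow_succ']

theorem fl_succ (j t : ℕ) :
    fl y a j (t + 1) = fl y a j t ⊔ Ideal.span {a t} * Ideal.span (Set.range y) ^ j := by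
  rw [fl, lay_succ, Ideal.sup_mul, fl]

theorem fl_mono (j t : ℕ) : fl y a j t ≤ fl y a j (t + 1) := by
  rw [fl_succ]; exact le_sup_left

theorem fl_succ_le (j t : ℕ) :
    fl y a j (t + 1) ≤
      fl y a j t ⊔ Ideal.span ((fun α => a t * mon y α) '' (expo n j : Set (Fin n → ℕ))) := by
  rw [fl_succ]
  refine sup_le_sup le_rfl ((Ideal.mul_mono_right (span_pow_le y j)).trans ?_)
  rw [Ideal.span_mul_span', Ideal.span_le]
  rintro _ ⟨_, rfl, _, ⟨α, hα, rfl⟩, rfl⟩
  exact Ideal.subset_span ⟨α, hα, rfl⟩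

variable [IsLocalRing T]

/-- An index is good if the monomials of each degree times `a t` are independent modulo the
previous layer. -/
def Good (t : ℕ) : Prop :=
  ∀ (j : ℕ) (c : (Fin n → ℕ) → T),
    ∑ α ∈ expo n j, c α * (a t * mon y α) ∈ fl y a j t → ∀ α ∈ expo n j, c α ∈ maximalIdeal T

theorem mul_mem_fl {j t : ℕ} (hm : ∀ c ∈ maximalIdeal T, c * a t ∈ lay y a t) {α : Fin n → ℕ}
    (hα : α ∈ expo n j) {c : T} (hc : c ∈ maximalIdeal T) : c * (a t * mon y α) ∈ fl y a j t := by
  rw [← mul_assoc]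
  exact Ideal.mul_mem_mul (hm c hc) (mon_mem_pow y hα)

variable (T) in
theorem length_residue : Module.length T (T ⧸ maximalIdeal T) = 1 := by
  have : IsSimpleModule T (T ⧸ maximalIdeal T) := by
    rw [isSimpleModule_iff_isCoatom]
    exact (maximalIdeal.isMaximal T).out
  exact Module.length_eq_one _ _

/-- A good layer has as many dimensions as there are monomials. -/
theorem card_le_layer {j t : ℕ} (hg : Good y a t) :
    ((expo n j).card : ℕ∞) ≤
      Module.length T (Submodule.map (fl y a j t).mkQ (fl y a j (t + 1))) := by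
  classical
  let Φ : (expo n j → T) →ₗ[T] T ⧸ fl y a j t :=
    Fintype.linearCombination T fun α : expo n j => (fl y a j t).mkQ (a t * mon y α)
  let π : (expo n j → T) →ₗ[T] (expo n j → T ⧸ maximalIdeal T) :=
    LinearMap.pi fun α => (maximalIdeal T).mkQ.comp (LinearMap.proj α)
  have hπ : Function.Surjective π := by
    intro v
    choose c hc using fun α => Submodule.mkQ_surjective (maximalIdeal T) (v α)
    exact ⟨c, funext fun α => by simp [π, hc]⟩
  have hker : LinearMap.ker Φ ≤ LinearMap.ker π := by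
    intro c hc
    rw [LinearMap.mem_ker] at hc ⊢
    funext α
    let c' : (Fin n → ℕ) → T := fun β => if h : β ∈ expo n j then c ⟨β, h⟩ else 0
    have hmem : ∑ β ∈ expo n j, c' β * (a t * mon y β) ∈ fl y a j t := by
      refine (Submodule.Quotient.mk_eq_zero _).1 ?_
      rw [← hc, Fintype.linearCombination_apply, ← Finset.sum_attach, ← Submodule.mkQ_apply,
        map_sum]
      refine Finset.sum_congr rfl fun β _ => ?_
      rw [← smul_eq_mul, map_smul]
      simp [c', β.2]
    have := hg j c' hmem α α.2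
    simp only [c', dif_pos α.2] at this
    exact (Submodule.Quotient.mk_eq_zero _).2 this
  have hrange : LinearMap.range Φ ≤ Submodule.map (fl y a j t).mkQ (fl y a j (t + 1)) := by
    rw [Fintype.range_linearCombination, Submodule.span_le]
    rintro _ ⟨α, rfl⟩
    refine Submodule.mem_map_of_mem ?_
    rw [fl_succ]
    exact Ideal.mem_sup_right
      (Ideal.mul_mem_mul (Ideal.mem_span_singleton_self _) (mon_mem_pow y α.2))
  calc ((expo n j).card : ℕ∞) = Module.length T (expo n j → T ⧸ maximalIdeal T) := by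
        rw [Module.length_pi]
        simp [length_residue]
    _ ≤ Module.length T ((expo n j → T) ⧸ LinearMap.ker Φ) := by
        rw [← (π.quotKerEquivOfSurjective hπ).length_eq]
        exact Module.length_le_of_surjective _ (Submodule.factor_surjective hker)
    _ = Module.length T (LinearMap.range Φ) := Φ.quotKerEquivRange.length_eq
    _ ≤ _ := Module.length_le_of_injective _ (Submodule.inclusion_injective hrange)

/-- The filtration refining `K + J^(j+1) ⊆ K + J^j`. -/
def flK (K : Ideal T) (j t : ℕ) : Ideal T := fl y a j t ⊔ K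

theorem layerK_le_card {K : Ideal T} {j t : ℕ} (hm : ∀ c ∈ maximalIdeal T, c * a t ∈ lay y a t)
    (S : Finset (Fin n → ℕ)) (hS : S ⊆ expo n j)
    (h : ∀ α ∈ expo n j, a t * mon y α ∈
      Ideal.span ((fun β => a t * mon y β) '' (S : Set (Fin n → ℕ))) ⊔ flK y a K j t) :
    Module.length T (Submodule.map (flK y a K j t).mkQ (flK y a K j (t + 1))) ≤
      (S.card : ℕ∞) := by
  classical
  refine (length_map_mkQ_le (J := maximalIdeal T) (S.image fun β => a t * mon y β) ?_ ?_).trans ?_
  · rw [Finset.coe_image]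
    refine sup_le ?_ (le_sup_of_le_right le_sup_right)
    refine (fl_succ_le y a j t).trans (sup_le (le_sup_of_le_right le_sup_left) ?_)
    rw [Ideal.span_le]
    rintro _ ⟨α, hα, rfl⟩
    exact h α hα
  · intro x hx c hc
    obtain ⟨β, hβ, rfl⟩ := Finset.mem_image.1 hx
    exact Ideal.mem_sup_left (mul_mem_fl y a hm (hS hβ) hc)
  · rw [length_residue, mul_one]
    exact_mod_cast Finset.card_image_le

/-- The exponents all of whose entries are less than `N`. -/
def box (n N : ℕ) : Finset (Fin n → ℕ) := Fintype.piFinset fun _ => Finset.range N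

omit [IsLocalRing T] in
theorem mon_mem_of_not_mem_box {N : ℕ} {α : Fin n → ℕ} (hα : α ∉ box n N) :
    mon y α ∈ Ideal.span (Set.range fun i => y i ^ N) := by
  obtain ⟨i, hi⟩ : ∃ i, N ≤ α i := by simpa [box] using hα
  refine Ideal.mem_of_dvd _ ?_ (Ideal.subset_span ⟨i, rfl⟩)
  exact dvd_trans (pow_dvd_pow _ hi) (Finset.dvd_prod_of_mem _ (Finset.mem_univ i))

theorem layerK_good_le {N j t : ℕ} (hm : ∀ c ∈ maximalIdeal T, c * a t ∈ lay y a t) :
    Module.length T (Submodule.map (flK y a (Ideal.span (Set.range fun i => y i ^ N)) j t).mkQ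
        (flK y a (Ideal.span (Set.range fun i => y i ^ N)) j (t + 1))) ≤
      (((box n N).filter fun α => ∑ i, α i = j).card : ℕ∞) := by
  refine layerK_le_card y a hm _ (fun α hα => mem_expo.2 (Finset.mem_filter.1 hα).2) fun α hα => ?_
  by_cases hb : α ∈ box n N
  · exact Ideal.mem_sup_left (Ideal.subset_span
      ⟨α, Finset.mem_filter.2 ⟨hb, mem_expo.1 hα⟩, rfl⟩)
  · exact Ideal.mem_sup_right (Ideal.mem_sup_right
      (Ideal.mul_mem_left _ _ (mon_mem_of_not_mem_box y hb)))

/-- For a bad index there is an exponent above which every monomial can be discarded. -/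
theorem exists_bound_of_not_good {t : ℕ} (hm : ∀ c ∈ maximalIdeal T, c * a t ∈ lay y a t)
    (hg : ¬ Good y a t) : ∃ α₀ : Fin n → ℕ, ∀ N j : ℕ,
    Module.length T (Submodule.map (flK y a (Ideal.span (Set.range fun i => y i ^ N)) j t).mkQ
        (flK y a (Ideal.span (Set.range fun i => y i ^ N)) j (t + 1))) ≤
      ((((box n N).filter fun α => ∃ i, α i < α₀ i).filter fun α => ∑ i, α i = j).card : ℕ∞) := by
  classical
  simp only [Good, not_forall] at hg
  obtain ⟨j₀, c, hrel, γ₀, hγ₀, hc₀⟩ := hg
  obtain ⟨α₀, hα₀, hmin⟩ := ((expo n j₀).filter fun γ => c γ ∉ maximalIdeal T).exists_min_image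
    (fun γ => toLex γ) ⟨γ₀, Finset.mem_filter.2 ⟨hγ₀, hc₀⟩⟩
  obtain ⟨hα₀D, hα₀c⟩ := Finset.mem_filter.1 hα₀
  refine ⟨α₀, fun N j => layerK_le_card y a hm _
    (fun α hα => mem_expo.2 (Finset.mem_filter.1 hα).2) ?_⟩
  set K := Ideal.span (Set.range fun i => y i ^ N)
  set S := ((box n N).filter fun α => ∃ i, α i < α₀ i).filter fun α => ∑ i, α i = j
  set G := Ideal.span ((fun β => a t * mon y β) '' (S : Set (Fin n → ℕ))) ⊔ flK y a K j t with hG
  suffices ∀ (k : ℕ) (α : Fin n → ℕ), α ∈ expo n j →
      ((expo n j).filter fun β => toLex α < toLex β).card < k → a t * mon y α ∈ G from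
    fun α hα => this _ α hα (Nat.lt_succ_self _)
  intro k
  induction k with
  | zero => intro α _ h; omega
  | succ k ih =>
    intro α hα hk
    by_cases hb : α ∈ box n N
    swap
    · exact Ideal.mem_sup_right (Ideal.mem_sup_right
        (Ideal.mul_mem_left _ _ (mon_mem_of_not_mem_box y hb)))
    by_cases hlo : ∃ i, α i < α₀ i
    · exact Ideal.mem_sup_left (Ideal.subset_span ⟨α, Finset.mem_filter.2
        ⟨Finset.mem_filter.2 ⟨hb, hlo⟩, mem_expo.1 hα⟩, rfl⟩)
    simp only [not_exists, not_lt] at hlo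
    set b : Fin n → ℕ := α - α₀
    have hαb : α₀ + b = α := funext fun i => by simp [b]; have := hlo i; omega
    have hsum : j₀ + ∑ i, b i = j := by
      rw [← mem_expo.1 hα, ← mem_expo.1 hα₀D, ← hαb, ← Finset.sum_add_distrib]
      rfl
    have hshift : ∀ γ ∈ expo n j₀, γ + b ∈ expo n j := fun γ hγ => by
      rw [mem_expo] at hγ ⊢
      rw [← hsum, ← hγ, ← Finset.sum_add_distrib]
      rfl
    have htot : ∑ γ ∈ expo n j₀, c γ * (a t * mon y (γ + b)) ∈ G := by
      refine Ideal.mem_sup_right (Ideal.mem_sup_left ?_)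
      have h1 : (∑ γ ∈ expo n j₀, c γ * (a t * mon y γ)) * mon y b ∈
          fl y a j₀ t * Ideal.span (Set.range y) ^ (∑ i, b i) :=
        Ideal.mul_mem_mul hrel (mon_mem_pow y (mem_expo.2 rfl))
      rw [fl, mul_assoc, ← pow_add, hsum, ← fl, Finset.sum_mul] at h1
      convert h1 using 2 with γ
      rw [mon_add]; ring
    have hrest : ∑ γ ∈ (expo n j₀).erase α₀, c γ * (a t * mon y (γ + b)) ∈ G := by
      refine Ideal.sum_mem _ fun γ hγ => ?_
      obtain ⟨hne, hγD⟩ := Finset.mem_erase.1 hγ
      by_cases hcγ : c γ ∈ maximalIdeal T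
      · exact Ideal.mem_sup_right (Ideal.mem_sup_left (mul_mem_fl y a hm (hshift γ hγD) hcγ))
      refine Ideal.mul_mem_left _ _ (ih _ (hshift γ hγD) ?_)
      have hlt : toLex α < toLex (γ + b) := by
        obtain ⟨i, hi, hi'⟩ : toLex α₀ < toLex γ := lt_of_le_of_ne
          (hmin γ (Finset.mem_filter.2 ⟨hγD, hcγ⟩)) fun h => hne (toLex.injective h).symm
        rw [← hαb]
        refine ⟨i, fun l hl => ?_, ?_⟩
        · have := hi l hl
          simp only [Pi.toLex_apply, Pi.add_apply] at this ⊢
          omega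
        · simp only [Pi.toLex_apply, Pi.add_apply] at hi' ⊢
          omega
      refine lt_of_lt_of_le (Finset.card_lt_card ?_) (Nat.lt_succ_iff.1 hk)
      refine (Finset.ssubset_iff_of_subset fun β hβ => ?_).2 ⟨γ + b, ?_, ?_⟩
      · simp only [Finset.mem_filter] at hβ ⊢
        exact ⟨hβ.1, hlt.trans hβ.2⟩
      · exact Finset.mem_filter.2 ⟨hshift γ hγD, hlt⟩
      · exact fun h => lt_irrefl _ (Finset.mem_filter.1 h).2
    rw [← Finset.add_sum_erase _ _ hα₀D, Ideal.add_mem_iff_left _ hrest, hαb] at htot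
    exact (Ideal.unit_mul_mem_iff_mem G (of_not_not hα₀c)).1 htot

theorem card_box (n N : ℕ) : (box n N).card = N ^ n := by simp [box]

theorem card_box_lt_le (N : ℕ) (α₀ : Fin n → ℕ) :
    ((box n N).filter fun α => ∃ i, α i < α₀ i).card ≤ (∑ i, α₀ i) * N ^ (n - 1) := by
  classical
  calc ((box n N).filter fun α => ∃ i, α i < α₀ i).card
      ≤ ((Finset.univ : Finset (Fin n)).biUnion fun i => Fintype.piFinset
          (Function.update (fun _ => Finset.range N) i (Finset.range (α₀ i)))).card := by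
        refine Finset.card_le_card fun α hα => ?_
        obtain ⟨hb, i, hi⟩ := Finset.mem_filter.1 hα
        refine Finset.mem_biUnion.2 ⟨i, Finset.mem_univ i, Fintype.mem_piFinset.2 fun k => ?_⟩
        rcases eq_or_ne k i with rfl | hk
        · simpa using hi
        · simpa [Function.update_of_ne hk] using Fintype.mem_piFinset.1 hb k
    _ ≤ ∑ i, α₀ i * N ^ (n - 1) := by
        refine Finset.card_biUnion_le.trans (Finset.sum_le_sum fun i _ => le_of_eq ?_)
        rw [Fintype.card_piFinset, ← Finset.mul_prod_erase _ _ (Finset.mem_univ i),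
          Function.update_self, Finset.card_range]
        congr 1
        rw [Finset.prod_congr rfl fun k hk => by
          rw [Function.update_of_ne (Finset.ne_of_mem_erase hk), Finset.card_range]]
        simp
    _ = _ := (Finset.sum_mul ..).symm

end Vale.Agent.P202.Mixed.BoxStep
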