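import Vale.Agent.P202.Mixed.Interface
import Vale.Agent.P202.Mixed.Reduce.BoxTools
import Vale.Agent.P202.Reduce.CutBound

/-!
# P202 mixed characteristic: parameters with small box lengths

For a reduction `y` of the maximal ideal, the number `E` of good layers is at most the lower
Hilbert-Samuel multiplicity, and `ℓ(T / (y_i^N)) ≤ E * N^e + C * (N + 1)^(e - 1)`.
-/

noncomputable section

namespace Vale.Agent.P202.Mixed

open IsLocalRing Filter Topology
open scoped ENNReal

universe u

namespace BoxStep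

variable {T : Type*} [CommRing T] [IsLocalRing T]

/-- A chain from an ideal containing a power of the maximal ideal to the unit ideal, with simple
steps. -/
theorem exists_steps [IsNoetherianRing T] {r : ℕ} (I : Ideal T) (hI : maximalIdeal T ^ r ≤ I) :
    ∃ (L : ℕ) (a : ℕ → T), I ⊔ Ideal.span (a '' Set.Iio L) = ⊤ ∧
      ∀ t < L, ∀ c ∈ maximalIdeal T, c * a t ∈ I ⊔ Ideal.span (a '' Set.Iio t) := by
  induction I using WellFoundedGT.induction with
  | ind I ih =>
    classical
    by_cases htop : I = ⊤
    · exact ⟨0, 0, by simp [htop], fun t ht => absurd ht (Nat.not_lt_zero t)⟩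
    have hex : ∃ k, maximalIdeal T ^ k ≤ I := ⟨r, hI⟩
    obtain ⟨k, hk⟩ : ∃ k, Nat.find hex = k + 1 := ⟨Nat.find hex - 1, by
      have : Nat.find hex ≠ 0 := fun h => htop (top_le_iff.1 (by
        simpa [h, Ideal.one_eq_top] using Nat.find_spec hex))
      omega⟩
    obtain ⟨a₀, ha₀, ha₀I⟩ :=
      SetLike.not_le_iff_exists.1 (Nat.find_min hex (by omega : k < Nat.find hex))
    have hlt : I < I ⊔ Ideal.span {a₀} := left_lt_sup.2 fun h =>
      ha₀I (h (Ideal.mem_span_singleton_self a₀))
    obtain ⟨L, a, hL, hst⟩ := ih _ hlt (hI.trans le_sup_left)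
    let a' : ℕ → T := fun t => if t = 0 then a₀ else a (t - 1)
    have him : ∀ t, I ⊔ Ideal.span (a' '' Set.Iio (t + 1)) =
        I ⊔ Ideal.span {a₀} ⊔ Ideal.span (a '' Set.Iio t) := by
      intro t
      have : a' '' Set.Iio (t + 1) = insert a₀ (a '' Set.Iio t) := by
        ext x
        constructor
        · rintro ⟨s, hs, rfl⟩
          rcases s with _ | s
          · exact Or.inl (if_pos rfl)
          · exact Or.inr ⟨s, by simp at hs ⊢; omega, by simp [a']⟩
        · rintro (rfl | ⟨s, hs, rfl⟩)
          · exact ⟨0, by simp, if_pos rfl⟩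
          · exact ⟨s + 1, by simp at hs ⊢; omega, by simp [a']⟩
      rw [this, Ideal.span_insert, sup_assoc]
    refine ⟨L + 1, a', (him L).trans hL, fun t ht c hc => ?_⟩
    rcases t with _ | t
    · refine Ideal.mem_sup_left (Nat.find_spec hex ?_)
      rw [hk, pow_succ']
      exact Ideal.mul_mem_mul hc (by simpa [a'] using ha₀)
    · rw [him t]
      simpa [a'] using hst t (by omega) c hc

variable {n : ℕ} (y : Fin n → T) (a : ℕ → T)

omit [IsLocalRing T] in
/-- Telescoping along the layers. -/
theorem length_quotient_chain (F : ℕ → Ideal T) (hF : ∀ t, F t ≤ F (t + 1)) (L : ℕ) :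
    Module.length T (T ⧸ F 0) =
      ∑ t ∈ Finset.range L, Module.length T (Submodule.map (F t).mkQ (F (t + 1))) +
        Module.length T (T ⧸ F L) := by
  induction L with
  | zero => simp
  | succ L ih =>
    rw [ih, Finset.sum_range_succ, length_quotient_eq_add (hF L), add_assoc]

omit [IsLocalRing T] in
theorem fl_last {j L : ℕ} (hL : lay y a L = ⊤) :
    fl y a j L = Ideal.span (Set.range y) ^ j := by
  rw [fl, hL, Ideal.top_mul]

open Classical in
/-- The good layers bound the Hilbert-Samuel function of the reduction from below. -/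
theorem mul_monCount_le {L : ℕ} (hL : lay y a L = ⊤) (N : ℕ) :
    ((((Finset.range L).filter fun t => Good y a t).card * monCount n N : ℕ) : ℕ∞) ≤
      Module.length T (T ⧸ Ideal.span (Set.range y) ^ N) := by
  induction N with
  | zero => simp [monCount]
  | succ N ih =>
    rw [← fl_zero y a N, length_quotient_chain _ (fl_mono y a N) L, fl_last y a hL, monCount,
      Finset.sum_range_succ, ← monCount, mul_add, Nat.cast_add, add_comm]
    refine add_le_add ?_ ih
    calc ((((Finset.range L).filter fun t => Good y a t).card * n.multichoose N : ℕ) : ℕ∞)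
        = ∑ t ∈ (Finset.range L).filter (fun t => Good y a t), ((expo n N).card : ℕ∞) := by
          rw [Finset.sum_const, card_expo, nsmul_eq_mul, Nat.cast_mul]
      _ ≤ ∑ t ∈ (Finset.range L).filter (fun t => Good y a t),
            Module.length T (Submodule.map (fl y a N t).mkQ (fl y a N (t + 1))) :=
          Finset.sum_le_sum fun t ht => card_le_layer y a (Finset.mem_filter.1 ht).2
      _ ≤ _ := Finset.sum_le_sum_of_subset_of_nonneg (Finset.filter_subset _ _)
            fun _ _ _ => zero_le

omit [IsLocalRing T] in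
/-- The length of a quotient as the sum of its layers. -/
theorem length_quotient_flK {L : ℕ} (hL : lay y a L = ⊤) (K : Ideal T) (M : ℕ) :
    Module.length T (T ⧸ (Ideal.span (Set.range y) ^ M ⊔ K)) =
      ∑ t ∈ Finset.range L, ∑ j ∈ Finset.range M,
        Module.length T (Submodule.map (flK y a K j t).mkQ (flK y a K j (t + 1))) := by
  induction M with
  | zero =>
    simp [Submodule.Quotient.subsingleton_iff, Ideal.one_eq_top]
  | succ M ih =>
    have h : flK y a K M 0 = Ideal.span (Set.range y) ^ (M + 1) ⊔ K := by rw [flK, fl_zero]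
    rw [← h, length_quotient_chain (flK y a K M) (fun t => sup_le_sup_right (fl_mono y a M t) K) L,
      show flK y a K M L = Ideal.span (Set.range y) ^ M ⊔ K by rw [flK, fl_last y a hL], ih,
      add_comm, ← Finset.sum_add_distrib]
    simp only [Finset.sum_range_succ]

theorem sum_card_filter_le {n : ℕ} (s : Finset (Fin n → ℕ)) (M : ℕ) :
    ∑ j ∈ Finset.range M, (s.filter fun α => ∑ i, α i = j).card ≤ s.card := by
  classical
  rw [← Finset.card_biUnion]
  · exact Finset.card_le_card (Finset.biUnion_subset.2 fun j _ => Finset.filter_subset _ _)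
  · intro j _ k _ hjk
    simp only [Function.onFun, Finset.disjoint_filter]
    intro α _ h1 h2
    exact hjk (h1.symm.trans h2)

open Classical in
/-- The box bound. -/
theorem exists_length_box_le {L : ℕ} (hn : 1 ≤ n) (hL : lay y a L = ⊤)
    (hm : ∀ t < L, ∀ c ∈ maximalIdeal T, c * a t ∈ lay y a t) :
    ∃ C : ℕ, ∀ N : ℕ, Module.length T (T ⧸ Ideal.span (Set.range fun i => y i ^ N)) ≤
      ((((Finset.range L).filter fun t => Good y a t).card * N ^ n +
        C * (N + 1) ^ (n - 1) : ℕ) : ℕ∞) := by
  have hex : ∀ t, ∃ α₀ : Fin n → ℕ, t < L → ¬ Good y a t → ∀ N j : ℕ,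
      Module.length T (Submodule.map (flK y a (Ideal.span (Set.range fun i => y i ^ N)) j t).mkQ
          (flK y a (Ideal.span (Set.range fun i => y i ^ N)) j (t + 1))) ≤
        ((((box n N).filter fun α => ∃ i, α i < α₀ i).filter fun α => ∑ i, α i = j).card : ℕ∞) := by
    intro t
    by_cases h : t < L ∧ ¬ Good y a t
    · obtain ⟨α₀, hα₀⟩ := exists_bound_of_not_good y a (hm t h.1) h.2
      exact ⟨α₀, fun _ _ => hα₀⟩
    · exact ⟨0, fun h1 h2 => absurd ⟨h1, h2⟩ h⟩
  choose α₀ hα₀ using hex
  refine ⟨∑ t ∈ Finset.range L, ∑ i, α₀ t i, fun N => ?_⟩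
  set K := Ideal.span (Set.range fun i => y i ^ N) with hK
  have hJK : Ideal.span (Set.range y) ^ (n * N) ≤ K := by
    refine (span_pow_le y _).trans (Ideal.span_le.2 ?_)
    rintro _ ⟨α, hα, rfl⟩
    obtain ⟨i, hi⟩ : ∃ i, N ≤ α i := by
      by_contra hcon
      simp only [not_exists, not_le] at hcon
      have : ∑ i, α i < ∑ _i : Fin n, N :=
        Finset.sum_lt_sum_of_nonempty ⟨⟨0, hn⟩, Finset.mem_univ _⟩ fun i _ => hcon i
      simp [mem_expo.1 hα] at this
    exact mon_mem_of_not_mem_box y fun h => absurd (Fintype.mem_piFinset.1 h i) (by simpa using hi)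
  have hlen := length_quotient_flK y a hL K (n * N)
  rw [sup_eq_right.2 hJK] at hlen
  rw [hlen]
  have hN : ∀ t, (∑ i, α₀ t i) * N ^ (n - 1) ≤ (∑ i, α₀ t i) * (N + 1) ^ (n - 1) :=
    fun t => Nat.mul_le_mul_left _ (Nat.pow_le_pow_left N.le_succ _)
  calc ∑ t ∈ Finset.range L, ∑ j ∈ Finset.range (n * N),
        Module.length T (Submodule.map (flK y a K j t).mkQ (flK y a K j (t + 1)))
      ≤ ∑ t ∈ Finset.range L,
          (((if Good y a t then N ^ n else 0) + (∑ i, α₀ t i) * (N + 1) ^ (n - 1) : ℕ) : ℕ∞) := by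
        refine Finset.sum_le_sum fun t ht => ?_
        have htL := Finset.mem_range.1 ht
        split_ifs with hg
        · refine (Finset.sum_le_sum fun j _ => layerK_good_le y a (hm t htL)).trans ?_
          rw [← Nat.cast_sum, Nat.cast_le]
          exact ((sum_card_filter_le _ _).trans (card_box n N).le).trans (Nat.le_add_right _ _)
        · refine (Finset.sum_le_sum fun j _ => hα₀ t htL hg N j).trans ?_
          rw [← Nat.cast_sum, Nat.cast_le, zero_add]
          exact ((sum_card_filter_le _ _).trans (card_box_lt_le N (α₀ t))).trans (hN t)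
    _ = _ := by
        rw [← Nat.cast_sum, Finset.sum_add_distrib, ← Finset.sum_filter, Finset.sum_const,
          smul_eq_mul, Finset.sum_mul]

end BoxStep

/-- Passing from a lower bound on the colengths of a reduction to the lower limit. -/
theorem BoxStep.le_liminf {T : Type u} [CommRing T] [IsLocalRing T] {d E r : ℕ}
    (hd : dimNat T = d)
    (h : ∀ N, ((E * monCount d N : ℕ) : ℕ∞) ≤
      Module.length T (T ⧸ maximalIdeal T ^ (N + r))) :
    (E : ℝ≥0∞) ≤ liminf (hsSeq T) atTop := by
  have hb : ∀ N : ℕ, 0 < N →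
      (E : ℝ≥0∞) * ((N : ℝ≥0∞) ^ d / ((N + r : ℕ) : ℝ≥0∞) ^ d) ≤ hsSeq T (N + r) := by
    intro N hN
    obtain ⟨k, rfl⟩ : ∃ k, N = k + 1 := ⟨N - 1, by omega⟩
    rw [hsSeq, hd, ← mul_div_assoc]
    refine ENNReal.div_le_div_right ?_ _
    calc (E : ℝ≥0∞) * ((k + 1 : ℕ) : ℝ≥0∞) ^ d
        ≤ (E : ℝ≥0∞) * ((d.factorial * monCount d (k + 1) : ℕ) : ℝ≥0∞) :=
          mul_le_mul' le_rfl (by exact_mod_cast pow_le_factorial_mul_monCount d k)
      _ = (d.factorial : ℝ≥0∞) * (((E * monCount d (k + 1) : ℕ) : ℕ∞) : ℝ≥0∞) := by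
          simp only [ENat.toENNReal_coe]; push_cast; ring
      _ ≤ _ := mul_le_mul' le_rfl (ENat.toENNReal_le.2 (h (k + 1)))
  have h := ENNReal.Tendsto.const_mul (tendsto_pow_div_add_pow r d) (Or.inl one_ne_zero)
    (a := (E : ℝ≥0∞))
  rw [mul_one] at h
  rw [← liminf_nat_add (hsSeq T) r, ← h.liminf_eq]
  exact liminf_le_liminf (eventually_atTop.2 ⟨1, fun N hN => hb N hN⟩)

open Classical in
/-- A local ring has parameters whose box lengths grow at most like its multiplicity. -/
theorem boxStatement : BoxStatement.{u} := by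
  intro T _ _ _ _ e he hdim
  subst hdim
  obtain ⟨y, r, hy, hred⟩ := exists_reduction (A := T)
  have hpow : maximalIdeal T ^ (1 + r) ≤ Ideal.span (Set.range y) := by simpa using hred 1
  obtain ⟨L, a, hL, hm⟩ := BoxStep.exists_steps _ hpow
  obtain ⟨C, hC⟩ := BoxStep.exists_length_box_le y a he hL hm
  refine ⟨y, _, C, fun i => hy (Ideal.subset_span (Set.mem_range_self i)), ⟨1 + r, hpow⟩, ?_, hC⟩
  refine BoxStep.le_liminf (r := r) rfl fun N => ?_
  exact (BoxStep.mul_monCount_le y a hL N).trans (length_quotient_mono (hred N))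

end Vale.Agent.P202.Mixed
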