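import Vale.Agent.P202.Mixed.Reduce.Devissage
import Vale.Agent.P202.Reduce.CutDim

/-!
# P202 mixed characteristic: the pieces of a devissage as multiplicities of quotient rings
-/

noncomputable section

namespace Vale.Agent.P202.Mixed

open IsLocalRing Filter Topology
open scoped ENNReal

/-- Length is unchanged along a surjective ring map. -/
theorem length_quot_comap {A B : Type*} [CommRing A] [CommRing B] (f : A →+* B)
    (hf : Function.Surjective f) (K : Ideal B) :
    Module.length A (A ⧸ K.comap f) = Module.length B (B ⧸ K) := by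
  let := f.toAlgebra
  let g : A →ₗ[A] B ⧸ K := (K.mkQ.restrictScalars A).comp (Algebra.linearMap A B)
  have hg : Function.Surjective g := K.mkQ_surjective.comp hf
  have hker : LinearMap.ker g = K.comap f := by
    ext x
    exact Submodule.Quotient.mk_eq_zero K
  rw [← hker, (g.quotKerEquivOfSurjective hg).length_eq,
    Module.length_eq_of_surjective (R := B) (S := A) (M := B ⧸ K) hf]

section Quotient

variable {A B : Type*} [CommRing A] [IsLocalRing A] [CommRing B] [IsLocalRing B]

/-- A piece is the normalised Hilbert-Samuel function of the quotient ring. -/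
theorem length_sup_pow_eq (f : A →+* B) (hf : Function.Surjective f) (N : ℕ) :
    Module.length A (A ⧸ (RingHom.ker f ⊔ maximalIdeal A ^ N)) =
      Module.length B (B ⧸ maximalIdeal B ^ N) := by
  rw [← length_quot_comap f hf, ← IsLocalRing.map_maximalIdeal_of_surjective f hf,
    ← Ideal.map_pow, Ideal.comap_map_of_surjective' f hf, sup_comm]

theorem pieceSeq_eq_hsSeq (f : A →+* B) (hf : Function.Surjective f) {J : Ideal A}
    (hJ : RingHom.ker f = J) {d : ℕ} (hd : dimNat B = d) : pieceSeq J d = hsSeq B := by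
  funext N
  rw [pieceSeq, hsSeq, hd, ← hJ, length_sup_pow_eq f hf]

theorem tendsto_pieceSeq_zero [IsNoetherianRing B] (f : A →+* B) (hf : Function.Surjective f)
    {J : Ideal A} (hJ : RingHom.ker f = J) {d : ℕ} (hd : dimNat B < d) :
    Tendsto (pieceSeq J d) atTop (𝓝 0) := by
  obtain ⟨C, hC⟩ := exists_qlen_pow_le (A := B)
  have hb : ∀ N : ℕ, 0 < N → pieceSeq J d N ≤
      ((d.factorial * (C * 2 ^ d) : ℕ) : ℝ≥0∞) * (N : ℝ≥0∞)⁻¹ := by
    intro N hN
    have hN0 : (N : ℝ≥0∞) ≠ 0 := by exact_mod_cast hN.ne'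
    have h1 : Module.length A (A ⧸ (J ⊔ maximalIdeal A ^ N)) * (N : ℕ∞) ≤
        ((C * 2 ^ d * N ^ d : ℕ) : ℕ∞) := by
      rw [← hJ, length_sup_pow_eq f hf, ← coe_qlen le_rfl, ← Nat.cast_mul, Nat.cast_le]
      calc qlen (maximalIdeal B ^ N) * N ≤ C * (N + 1) ^ dimNat B * (N + 1) :=
            Nat.mul_le_mul (hC N) N.le_succ
        _ ≤ C * (N + 1) ^ d := by
            rw [mul_assoc, ← pow_succ]
            exact Nat.mul_le_mul_left _ (Nat.pow_le_pow_right (by omega) (by omega))
        _ ≤ _ := by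
            rw [mul_assoc, ← mul_pow]
            exact Nat.mul_le_mul_left _ (Nat.pow_le_pow_left (by omega) _)
    have h2 : ((Module.length A (A ⧸ (J ⊔ maximalIdeal A ^ N)) : ℕ∞) : ℝ≥0∞) * N ≤
        ((C * 2 ^ d : ℕ) : ℝ≥0∞) * (N : ℝ≥0∞) ^ d := by
      have := ENat.toENNReal_le.2 h1
      simpa using this
    rw [pieceSeq]
    refine ENNReal.div_le_of_le_mul ?_
    calc (d.factorial : ℝ≥0∞) *
          ((Module.length A (A ⧸ (J ⊔ maximalIdeal A ^ N)) : ℕ∞) : ℝ≥0∞)
        ≤ (d.factorial : ℝ≥0∞) * (((C * 2 ^ d : ℕ) : ℝ≥0∞) * (N : ℝ≥0∞) ^ d / N) := by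
          refine mul_le_mul' le_rfl ?_
          rw [ENNReal.le_div_iff_mul_le (Or.inl hN0) (Or.inl (ENNReal.natCast_ne_top N))]
          exact h2
      _ = _ := by simp only [div_eq_mul_inv]; push_cast; ring
  have hlim : Tendsto (fun N : ℕ => ((d.factorial * (C * 2 ^ d) : ℕ) : ℝ≥0∞) * (N : ℝ≥0∞)⁻¹)
      atTop (𝓝 0) := by
    have := ENNReal.Tendsto.const_mul ENNReal.tendsto_inv_nat_nhds_zero
      (a := ((d.factorial * (C * 2 ^ d) : ℕ) : ℝ≥0∞)) (Or.inr (ENNReal.natCast_ne_top _))
    rwa [mul_zero] at this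
  exact tendsto_of_tendsto_of_tendsto_of_le_of_le' tendsto_const_nhds hlim
    (Eventually.of_forall fun _ => zero_le)
    ((eventually_gt_atTop 0).mono fun N hN => hb N hN)

theorem dimNat_le_of_surjective [IsNoetherianRing A] [IsNoetherianRing B] (f : A →+* B)
    (hf : Function.Surjective f) : dimNat B ≤ dimNat A := by
  have := ringKrullDim_le_of_surjective f hf
  rw [coe_dimNat A, coe_dimNat B] at this
  exact_mod_cast this

end Quotient

/-- Colon ideals commute with flat extensions. -/
theorem mem_map_colonOf_of_flat {A : Type*} {T : Type*} [CommRing A] [CommRing T]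
    [IsNoetherianRing A] (g : A →+* T) (hflat : g.Flat) (I : Ideal A) (a : A) {x : T}
    (hx : x * g a ∈ I.map g) : x ∈ (colonOf I a).map g := by
  classical
  algebraize [g]
  obtain ⟨m, u, hu⟩ := Submodule.fg_iff_exists_fin_generating_family.1 (IsNoetherian.noetherian I)
  have hmap : I.map g = Ideal.span (Set.range fun i => g (u i)) := by
    rw [← hu, Ideal.map_span, ← Set.range_comp]
    rfl
  rw [hmap] at hx
  obtain ⟨t, ht⟩ := Submodule.mem_span_range_iff_exists_fun T |>.1 hx
  let f : Option (Fin m) → A := fun o => o.elim a u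
  let y : Option (Fin m) → T := fun o => o.elim x fun i => -t i
  have hsum : ∑ o, f o • y o = 0 := by
    rw [Fintype.sum_option]
    simp only [f, y, Option.elim_none, Option.elim_some, Algebra.smul_def, mul_neg,
      Finset.sum_neg_distrib]
    show g a * x + -∑ i, g (u i) * t i = 0
    rw [show ∑ i, g (u i) * t i = x * g a by rw [← ht]; simp [mul_comm]]
    ring
  obtain ⟨k, c, z, hy, hc⟩ := Module.Flat.isTrivialRelation_of_sum_smul_eq_zero (R := A) (M := T)
    (f := f) (x := y) hsum
  rw [show x = ∑ j, c none j • z j from hy none]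
  refine sum_mem fun j _ => ?_
  rw [Algebra.smul_def]
  refine Ideal.mul_mem_right _ _ (Ideal.mem_map_of_mem g (mem_colonOf.2 ?_))
  have h := hc j
  rw [Fintype.sum_option] at h
  simp only [f, Option.elim_none, Option.elim_some] at h
  rw [mul_comm, eq_neg_of_add_eq_zero_left h]
  refine neg_mem (sum_mem fun i _ => I.mul_mem_right _ ?_)
  rw [← hu]
  exact Submodule.subset_span ⟨i, rfl⟩

theorem mul_mem_map_of_mem_map_colonOf {A T : Type*} [CommRing A] [CommRing T] (g : A →+* T)
    (I : Ideal A) (a : A) {x : T} (hx : x ∈ (colonOf I a).map g) : x * g a ∈ I.map g := by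
  refine (Ideal.map_le_iff_le_comap.2 ?_ :
    (colonOf I a).map g ≤ Submodule.comap (LinearMap.mulRight T (g a)) (I.map g)) hx
  intro y hy
  show g y * g a ∈ I.map g
  rw [← map_mul]
  exact Ideal.mem_map_of_mem g hy

end Vale.Agent.P202.Mixed
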