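import Vale.Agent.P202.Mixed.Interface
import Vale.Agent.P202.Mixed.Reduce.Pieces
import Vale.Agent.P202.Imperfect.General

/-!
# P202 mixed characteristic: complete sources from complete domains
-/

noncomputable section

namespace Vale.Agent.P202.Mixed

open IsLocalRing Filter Topology
open scoped ENNReal

universe u

/-- The residue fields of a local ring and of a nonzero quotient agree. -/
def residueQuotientEquiv {A : Type u} [CommRing A] [IsLocalRing A] (Q : Ideal A)
    [IsLocalRing (A ⧸ Q)] : ResidueField A ≃+* ResidueField (A ⧸ Q) :=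
  have : IsLocalHom (Ideal.Quotient.mk Q) := IsLocalHom.of_surjective _ Ideal.Quotient.mk_surjective
  RingEquiv.ofBijective (ResidueField.map (Ideal.Quotient.mk Q))
    ⟨RingHom.injective _, fun y => by
      obtain ⟨y, rfl⟩ := residue_surjective y
      obtain ⟨x, rfl⟩ := Ideal.Quotient.mk_surjective y
      exact ⟨residue A x, ResidueField.map_residue _ x⟩⟩

/-- The inequality for one piece of the devissage. -/
theorem limsup_piece_le (h : DomainLech.{u}) (p : ℕ) [Fact p.Prime] {A : Type u} [CommRing A]
    [IsLocalRing A] [IsNoetherianRing A] [IsAdicComplete (maximalIdeal A) A]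
    [Infinite (ResidueField A)] (hpm : (p : A) ∈ maximalIdeal A) {T : Type u} [CommRing T]
    [IsLocalRing T] [IsNoetherianRing T] [IsAdicComplete (maximalIdeal T) T]
    [IsAlgClosed (ResidueField T)] (g : A →+* T) (hloc : IsLocalHom g) (hflat : g.Flat) {r : ℕ}
    (hr : maximalIdeal T ^ r ≤ (maximalIdeal A).map g) (Q : Ideal A) (hQ : Q.IsPrime) :
    limsup (pieceSeq Q (dimNat A)) atTop ≤ liminf (pieceSeq (Q.map g) (dimNat A)) atTop := by
  let A' := A ⧸ Q
  let T' := T ⧸ Q.map g
  let mA : A →+* A' := Ideal.Quotient.mk Q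
  let mT : T →+* T' := Ideal.Quotient.mk (Q.map g)
  have hmA : Function.Surjective mA := Ideal.Quotient.mk_surjective
  have hmT : Function.Surjective mT := Ideal.Quotient.mk_surjective
  have hgm : (maximalIdeal A).map g ≤ maximalIdeal T :=
    ((IsLocalRing.local_hom_TFAE g).out 0 2).1 hloc
  have hQm : Q ≤ maximalIdeal A := IsLocalRing.le_maximalIdeal hQ.ne_top
  have : IsDomain A' := Ideal.Quotient.isDomain Q
  have : IsLocalRing A' := IsLocalRing.of_surjective' mA hmA
  have : Nontrivial T' := Ideal.Quotient.nontrivial_iff.2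
    (ne_top_of_le_ne_top (maximalIdeal.isMaximal T).ne_top ((Ideal.map_mono hQm).trans hgm))
  have : IsLocalRing T' := IsLocalRing.of_surjective' mT hmT
  have hkA : RingHom.ker mA = Q := Ideal.mk_ker
  have hkT : RingHom.ker mT = Q.map g := Ideal.mk_ker
  rcases lt_or_eq_of_le (dimNat_le_of_surjective mA hmA) with hlt | heq
  · rw [(tendsto_pieceSeq_zero mA hmA hkA hlt).limsup_eq]
    exact zero_le
  let g' : A' →+* T' := Ideal.quotientMap (Q.map g) g Ideal.le_comap_map
  have hmax : (maximalIdeal A').map g' = ((maximalIdeal A).map g).map mT := by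
    rw [← IsLocalRing.map_maximalIdeal_of_surjective mA hmA, Ideal.map_map, Ideal.map_map,
      Ideal.quotientMap_comp_mk]
  have hmaxT := IsLocalRing.map_maximalIdeal_of_surjective mT hmT
  have hg'l : IsLocalHom g' := by
    refine ((IsLocalRing.local_hom_TFAE g').out 0 2).2 ?_
    rw [hmax, ← hmaxT]
    exact Ideal.map_mono hgm
  have hg'f : g'.Flat := flat_quotient_map g hflat Q
  have hr' : maximalIdeal T' ^ r ≤ (maximalIdeal A').map g' := by
    rw [hmax, ← hmaxT, ← Ideal.map_pow]
    exact Ideal.map_mono hr
  have hdT : dimNat T' = dimNat A :=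
    (Imperfect.dimNat_eq_of_primary g' hg'l hg'f hr').trans heq
  rw [pieceSeq_eq_hsSeq mA hmA hkA heq, pieceSeq_eq_hsSeq mT hmT hkT hdT]
  by_cases hp : (p : A') = 0
  · have : CharP A' p := (CharP.charP_iff_prime_eq_zero (Fact.out : p.Prime)).2 hp
    let := g'.toAlgebra
    have : IsLocalHom (algebraMap A' T') := hg'l
    have : Module.Flat A' T' := hg'f
    exact Imperfect.lech_charP_all p A' T'
  · have : IsAdicComplete (maximalIdeal A') A' := isAdicComplete_quotient Q
    have : IsAdicComplete (maximalIdeal T') T' := isAdicComplete_quotient (Q.map g)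
    have : Infinite (ResidueField A') := Infinite.of_injective _ (residueQuotientEquiv Q).injective
    have : IsAlgClosed (ResidueField T') :=
      IsAlgClosed.of_ringEquiv (ResidueField T) _ (residueQuotientEquiv (Q.map g))
    refine h p A' hp ?_ T' g' hg'l hg'f ⟨r, hr'⟩
    rw [← IsLocalRing.map_maximalIdeal_of_surjective mA hmA, ← map_natCast mA]
    exact Ideal.mem_map_of_mem mA hpm

/-- Lech's inequality for complete sources follows from the case of domains. -/
theorem completeLech (h : DomainLech.{u}) : CompleteLech.{u} := by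
  intro p _ A _ _ _ _ _ hpm T _ _ _ _ _ g hloc hflat ⟨r, hr⟩
  obtain ⟨n, I, a, h0, hn, hI⟩ := exists_prime_chain A
  have hd : dimNat T = dimNat A := Imperfect.dimNat_eq_of_primary g hloc hflat hr
  refine le_trans (limsup_hsSeq_le_sum (J := fun i => colonOf (I i) (a i)) h0 hn
    (fun i hi => (hI i hi).1.le) fun i _ x hx => hx) ?_
  refine le_trans ?_ (sum_liminf_le_hsSeq (I := fun i => (I i).map g) (a := fun i => g (a i))
    (J := fun i => (colonOf (I i) (a i)).map g) (n := n) (by rw [h0, Ideal.map_bot])
    (fun i hi => by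
      rw [(hI i hi).1, Ideal.map_sup, Ideal.map_span, Set.image_singleton])
    fun i _ x hx => mem_map_colonOf_of_flat g hflat (I i) (a i) hx)
  rw [hd]
  exact Finset.sum_le_sum fun i hi =>
    limsup_piece_le h p hpm g hloc hflat hr _ (hI i (Finset.mem_range.1 hi)).2

end Vale.Agent.P202.Mixed
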