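import Vale.Agent.P202.Mixed.Cohen.Ring
import Vale.Agent.P202.Reduce.GeneralTools

/-!
# P202 mixed characteristic: completions with their universal property
-/

noncomputable section

namespace Vale.Agent.P202.Mixed.Reduce

open IsLocalRing

universe u

/-- The completion of a Noetherian local ring of residue characteristic `p` is Noetherian, with the
extension of local maps to complete local rings. -/
theorem exists_completion_lift (p : ℕ) [Fact p.Prime] (R : Type u) [CommRing R]
    [IsNoetherianRing R] [IsLocalRing R] (hp : (p : R) ∈ maximalIdeal R) :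
    ∃ (A : Type u) (_ : CommRing A) (_ : IsLocalRing A) (_ : IsNoetherianRing A)
      (_ : IsAdicComplete (maximalIdeal A) A) (f : R →+* A),
      IsLocalHom f ∧ f.Flat ∧ (maximalIdeal R).map f = maximalIdeal A ∧
      (∃ e : ResidueField R →+* ResidueField A, Function.Bijective e ∧
        e.comp (residue R) = (residue A).comp f) ∧
      ∀ (B : Type u) [CommRing B] [IsLocalRing B] [IsAdicComplete (maximalIdeal B) B]
        (g : R →+* B), (∀ a ∈ maximalIdeal R, g a ∈ maximalIdeal B) →
        ∃ ψ : A →+* B, ψ.comp f = g := by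
  let A := AdicCompletion (maximalIdeal R) R
  have : CharP (ResidueField A) p := by
    refine (CharP.charP_iff_prime_eq_zero (Fact.out : p.Prime)).2 ?_
    rw [← map_natCast (residue A), residue_eq_zero_iff, AdicCompletion.maximalIdeal_eq_map,
      ← map_natCast (algebraMap R A)]
    exact Ideal.mem_map_of_mem _ hp
  obtain ⟨C, iC, iCl, hC, ⟨e⟩⟩ := Cohen.cohenStatement.{u} p (ResidueField A)
  have := hC.noetherian
  obtain ⟨fC, -, hfC⟩ := hC.exists_hom A e.toRingHom
  obtain ⟨n, x, hx⟩ := Submodule.fg_iff_exists_fin_generating_family.1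
    (IsNoetherian.noetherian (maximalIdeal R))
  have hmax : maximalIdeal A = Ideal.span (Set.range fun i => algebraMap R A (x i)) := by
    refine AdicCompletion.maximalIdeal_eq_map.trans
      ((congrArg (Ideal.map (algebraMap R A)) hx).symm.trans ?_)
    show Ideal.map (algebraMap R A) (Ideal.span (Set.range x)) = _
    rw [Ideal.map_span, ← Set.range_comp]
    rfl
  obtain ⟨φ, hφC, hφX, -⟩ := exists_evalHom fC (fun i => algebraMap R A (x i))
    fun i => hmax ▸ Ideal.subset_span (Set.mem_range_self i)
  have hN : IsNoetherianRing A := isNoetherianRing_of_surjective _ _ φ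
    (surjective_powerSeriesHom φ (fun a => by
      obtain ⟨c, hc⟩ := residue_surjective (e.symm (residue A a))
      refine ⟨c, ?_⟩
      rw [← residue_eq_zero_iff, map_sub, hφC, hfC, hc]
      simp) (by simpa only [hφX] using hmax))
  refine ⟨A, inferInstance, inferInstance, hN, inferInstance, algebraMap R A, inferInstance,
    RingHom.flat_algebraMap_iff.2 inferInstance, AdicCompletion.maximalIdeal_eq_map.symm,
    ⟨ResidueField.map (algebraMap R A), AdicCompletion.residueField_map_bijective R,
    RingHom.ext fun _ => rfl⟩, ?_⟩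
  intro B _ _ _ g hg
  have hle : ∀ N, maximalIdeal R ^ N ≤ (maximalIdeal B ^ N).comap g := fun N =>
    Ideal.map_le_iff_le_comap.1 <| by
      rw [Ideal.map_pow]
      exact Ideal.pow_right_mono (Ideal.map_le_iff_le_comap.2 hg) N
  let F : (N : ℕ) → A →+* B ⧸ maximalIdeal B ^ N := fun N =>
    (Ideal.quotientMap (maximalIdeal B ^ N) g (hle N)).comp
      (AdicCompletion.evalₐ (maximalIdeal R) N).toRingHom
  have hF : ∀ {i N : ℕ} (h : i ≤ N),
      (Ideal.Quotient.factorPow (maximalIdeal B) h).comp (F N) = F i := by
    intro i N h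
    refine RingHom.ext fun y => ?_
    induction y using AdicCompletion.induction_on with
    | _ y =>
      simp only [F, RingHom.comp_apply, AlgHom.toRingHom_eq_coe, RingHom.coe_coe]
      rw [show AdicCompletion.evalₐ (maximalIdeal R) N (AdicCompletion.mk (maximalIdeal R) R y) =
          Ideal.Quotient.mk (maximalIdeal R ^ N) (y.1 N) from AdicCompletion.evalₐ_mk _ _ _,
        show AdicCompletion.evalₐ (maximalIdeal R) i (AdicCompletion.mk (maximalIdeal R) R y) =
          Ideal.Quotient.mk (maximalIdeal R ^ i) (y.1 i) from AdicCompletion.evalₐ_mk _ _ _,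
        Ideal.quotientMap_mk, Ideal.quotientMap_mk, factorPow_mk, Ideal.Quotient.eq, ← map_sub]
      refine hle i ?_
      have := SModEq.sub_mem.1 (y.2 h)
      rw [smul_eq_mul, Ideal.mul_top] at this
      exact neg_sub (y.1 i) (y.1 N) ▸ neg_mem this
  refine ⟨IsAdicComplete.liftRingHom (maximalIdeal B) F hF, RingHom.ext fun a => ?_⟩
  refine sub_eq_zero.1 (IsHausdorff.haus' (I := maximalIdeal B) _ fun N => ?_)
  rw [SModEq.zero, smul_eq_mul, Ideal.mul_top, ← Ideal.Quotient.eq, RingHom.comp_apply,
    IsAdicComplete.mk_liftRingHom]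
  simp only [F, RingHom.comp_apply, AlgHom.toRingHom_eq_coe, RingHom.coe_coe]
  rw [AlgHom.commutes, Ideal.Quotient.algebraMap_eq, Ideal.quotientMap_mk]

end Vale.Agent.P202.Mixed.Reduce
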