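import Vale.Agent.P202.Imperfect.Fibre
import Vale.Agent.P202.Reduce.FlatInvariant
import Mathlib.RingTheory.Polynomial.Basic

/-!
# P202 mixed characteristic: enlarging a finite residue field

For a flat local map `R → S` the localisations `R(u)` and `S(u)` of `R[u]`, `S[u]` at the extended
maximal ideals give a flat local map with the same Hilbert-Samuel sequences and an infinite residue
field at the source.
-/

noncomputable section

namespace Vale.Agent.P202.Mixed.Reduce

open IsLocalRing Polynomial

universe u

/-- The localisation of `R[X]` at `m R[X]`: flat, with the same maximal ideal. -/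
theorem extension_props (R : Type u) [CommRing R] [IsNoetherianRing R] [IsLocalRing R] :
    let P := (maximalIdeal R).map (C : R →+* R[X])
    let f : R →+* Localization.AtPrime P := (algebraMap R[X] (Localization.AtPrime P)).comp C
    IsLocalHom f ∧ f.Flat ∧ (maximalIdeal R).map f = maximalIdeal (Localization.AtPrime P) ∧
      Infinite (ResidueField (Localization.AtPrime P)) := by
  intro P f
  have hm : (maximalIdeal R).map f = maximalIdeal (Localization.AtPrime P) := by
    rw [← Ideal.map_map]
    exact Localization.AtPrime.map_eq_maximalIdeal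
  refine ⟨((IsLocalRing.local_hom_TFAE f).out 0 2).2 hm.le, ?_, hm, ?_⟩
  · have h : (algebraMap R R[X]).Flat := RingHom.flat_algebraMap_iff.2 inferInstance
    rw [Polynomial.algebraMap_eq] at h
    exact h.comp (RingHom.flat_algebraMap_iff.2 (IsLocalization.flat _ P.primeCompl))
  · refine Infinite.of_injective
      (fun n : ℕ => residue (Localization.AtPrime P) (algebraMap R[X] _ (X ^ n))) fun i j h => ?_
    by_contra hij
    have h0 : residue _ (algebraMap R[X] (Localization.AtPrime P) (X ^ i - X ^ j)) = 0 := by
      rw [map_sub, map_sub, sub_eq_zero]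
      exact h
    rw [residue_eq_zero_iff, IsLocalization.AtPrime.to_map_mem_maximal_iff _ P,
      Ideal.mem_map_C_iff] at h0
    have h1 := h0 i
    rw [coeff_sub, coeff_X_pow, coeff_X_pow, if_pos rfl, if_neg hij, sub_zero] at h1
    exact (mem_maximalIdeal 1).1 h1 isUnit_one

/-- A flat local map has a model with the same Hilbert-Samuel sequences whose source has an
infinite residue field. -/
theorem exists_infinite_residue (R : Type u) [CommRing R] [IsNoetherianRing R] [IsLocalRing R]
    (S : Type u) [CommRing S] [IsNoetherianRing S] [IsLocalRing S] [Algebra R S]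
    [IsLocalHom (algebraMap R S)] [Module.Flat R S] :
    ∃ (R' : Type u) (_ : CommRing R') (_ : IsNoetherianRing R') (_ : IsLocalRing R')
      (S' : Type u) (_ : CommRing S') (_ : IsNoetherianRing S') (_ : IsLocalRing S')
      (f : R →+* R') (g : R' →+* S'),
      (maximalIdeal R).map f = maximalIdeal R' ∧ Infinite (ResidueField R') ∧
      IsLocalHom g ∧ g.Flat ∧ hsSeq R' = hsSeq R ∧ hsSeq S' = hsSeq S := by
  let P := (maximalIdeal R).map (C : R →+* R[X])
  let Q := (maximalIdeal S).map (C : S →+* S[X])
  let R' := Localization.AtPrime P
  let S' := Localization.AtPrime Q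
  let fR : R →+* R' := (algebraMap R[X] R').comp C
  let fS : S →+* S' := (algebraMap S[X] S').comp C
  obtain ⟨hRl, hRf, hRm, hRi⟩ := extension_props R
  obtain ⟨hSl, hSf, hSm, -⟩ := extension_props S
  have : IsNoetherianRing R' := IsLocalization.isNoetherianRing P.primeCompl R' inferInstance
  have : IsNoetherianRing S' := IsLocalization.isNoetherianRing Q.primeCompl S' inferInstance
  have hPQ : P = Q.comap (mapRingHom (algebraMap R S)) := by
    ext q
    simp only [P, Q, Ideal.mem_comap, Ideal.mem_map_C_iff, coe_mapRingHom, coeff_map]
    refine forall_congr' fun n => ?_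
    simp only [mem_maximalIdeal, mem_nonunits_iff, isUnit_map_iff]
  let g : R' →+* S' := Localization.localRingHom P Q (mapRingHom (algebraMap R S)) hPQ
  have hg : IsLocalHom g := Localization.isLocalHom_localRingHom P Q _ hPQ
  have hcomp : g.comp fR = fS.comp (algebraMap R S) := RingHom.ext fun a => by
    simp only [g, fR, fS, RingHom.comp_apply]
    rw [Localization.localRingHom_to_map, coe_mapRingHom, map_C]
  refine ⟨R', inferInstance, inferInstance, inferInstance, S', inferInstance, inferInstance,
    inferInstance, fR, g, hRm, hRi, hg, ?_, hsSeq_eq_of_flat_map_maximal fR hRf hRl hRm,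
    hsSeq_eq_of_flat_map_maximal fS hSf hSl hSm⟩
  refine Imperfect.flat_of_comp_flat fR g hRm hg ?_
  rw [hcomp]
  exact (RingHom.flat_algebraMap_iff.2 inferInstance).comp hSf

end Vale.Agent.P202.Mixed.Reduce
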