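import Vale.Agent.P202.EqualChar
import Vale.Agent.P202.Mixed.Interface
import Vale.Agent.P202.Mixed.Cohen.Cover
import Vale.Agent.P202.Mixed.Reduce.Completion
import Vale.Agent.P202.Mixed.Reduce.ResidueExt

/-!
# P202 mixed characteristic: from complete rings to all flat local maps
-/

noncomputable section

namespace Vale.Agent.P202.Mixed.Reduce

open IsLocalRing Filter

universe u

/-- The case of an infinite residue field of characteristic `p`. -/
theorem lech_residueChar_infinite (hL : CompleteLech.{u}) (hN : NagataStatement.{u})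
    (p : ℕ) [Fact p.Prime] (R : Type u) [CommRing R] [IsNoetherianRing R] [IsLocalRing R]
    [Infinite (ResidueField R)] (hp : (p : R) ∈ maximalIdeal R)
    (S : Type u) [CommRing S] [IsNoetherianRing S] [IsLocalRing S] (φ : R →+* S)
    (hφl : IsLocalHom φ) (hφf : φ.Flat) :
    limsup (hsSeq R) atTop ≤ liminf (hsSeq S) atTop := by
  have hpS : (p : S) ∈ maximalIdeal S := by
    have hm : (maximalIdeal R).map φ ≤ maximalIdeal S :=
      ((IsLocalRing.local_hom_TFAE φ).out 0 2).1 hφl
    rw [← map_natCast φ]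
    exact hm (Ideal.mem_map_of_mem φ hp)
  obtain ⟨B, iB, iBl, iBn, iBc, fS, iBa, hSl, hSf, hSm⟩ := Cohen.coverStatement.{u} p S hpS
  rw [← hsSeq_eq_of_flat_map_maximal fS hSf hSl hSm]
  let g : R →+* B := fS.comp φ
  have hgl : IsLocalHom g := RingHom.isLocalHom_comp fS φ
  have hgf : g.Flat := hφf.comp hSf
  obtain ⟨P, hP, hmP, hmin, hdim⟩ := exists_prime_over g hgl hgf
  have hpP : (p : B) ∈ P := by
    rw [← map_natCast g]
    exact hmP (Ideal.mem_map_of_mem g hp)
  refine le_trans ?_ (hN p B P hpP hdim)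
  let BP := Localization.AtPrime P
  let gP : R →+* BP := (algebraMap B BP).comp g
  have hgPl : IsLocalHom gP := by
    refine ((IsLocalRing.local_hom_TFAE gP).out 0 2).2 ?_
    rw [← Ideal.map_map, ← Localization.AtPrime.map_eq_maximalIdeal]
    exact Ideal.map_mono hmP
  have hgPf : gP.Flat :=
    hgf.comp (RingHom.flat_algebraMap_iff.2 (IsLocalization.flat BP P.primeCompl))
  have : IsNoetherianRing BP := IsLocalization.isNoetherianRing P.primeCompl BP inferInstance
  obtain ⟨r, hr⟩ : ∃ r, maximalIdeal BP ^ r ≤ (maximalIdeal R).map gP := by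
    refine exists_pow_le_of_forall_prime_eq _ fun Q hQ hle => ?_
    have hdisj := (IsLocalization.isPrime_iff_isPrime_disjoint P.primeCompl BP Q).1 hQ
    have hQP : Q.comap (algebraMap B BP) ≤ P := fun x hx => by
      by_contra hxP
      exact Set.disjoint_left.1 hdisj.2 hxP hx
    have heq := hmin _ hdisj.1
      (Ideal.map_le_iff_le_comap.1 (by rw [Ideal.map_map]; exact hle)) hQP
    rw [← IsLocalization.map_under P.primeCompl BP Q, ← Localization.AtPrime.map_eq_maximalIdeal]
    exact congrArg (Ideal.map (algebraMap B BP)) heq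
  have hpBP : (p : BP) ∈ maximalIdeal BP := by
    have hm : (maximalIdeal R).map gP ≤ maximalIdeal BP :=
      ((IsLocalRing.local_hom_TFAE gP).out 0 2).1 hgPl
    rw [← map_natCast gP]
    exact hm (Ideal.mem_map_of_mem gP hp)
  obtain ⟨T, iT, iTl, iTn, iTc, fT, iTa, hTl, hTf, hTm⟩ := Cohen.coverStatement.{u} p BP hpBP
  refine le_trans ?_ (liminf_le_limsup)
  rw [← hsSeq_eq_of_flat_map_maximal fT hTf hTl hTm]
  let gT : R →+* T := fT.comp gP
  have hgTl : IsLocalHom gT := RingHom.isLocalHom_comp fT gP
  have hgTf : gT.Flat := hgPf.comp hTf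
  have hgTr : maximalIdeal T ^ r ≤ (maximalIdeal R).map gT := by
    rw [← hTm, ← Ideal.map_map, ← Ideal.map_pow]
    exact Ideal.map_mono hr
  obtain ⟨A, iA, iAl, iAn, iAc, fR, hRl, hRf, hRm, ⟨e, he, -⟩, hlift⟩ :=
    exists_completion_lift p R hp
  have hgm : (maximalIdeal R).map gT ≤ maximalIdeal T :=
    ((IsLocalRing.local_hom_TFAE gT).out 0 2).1 hgTl
  obtain ⟨gA, hgA⟩ := hlift T gT fun a ha => hgm (Ideal.mem_map_of_mem gT ha)
  have hmap : (maximalIdeal A).map gA = (maximalIdeal R).map gT := by
    rw [← hRm, Ideal.map_map, hgA]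
  have hgAl : IsLocalHom gA := ((IsLocalRing.local_hom_TFAE gA).out 0 2).2 (hmap ▸ hgm)
  have hgAf : gA.Flat := Imperfect.flat_of_comp_flat fR gA hRm hgAl (hgA.symm ▸ hgTf)
  have : Infinite (ResidueField A) := Infinite.of_injective e he.1
  have hpA : (p : A) ∈ maximalIdeal A := by
    rw [← map_natCast fR, ← hRm]
    exact Ideal.mem_map_of_mem fR hp
  rw [← hsSeq_eq_of_flat_map_maximal fR hRf hRl hRm]
  exact hL p A hpA T gA hgAl hgAf ⟨r, hmap.symm ▸ hgTr⟩

/-- A Noetherian local ring of residue characteristic zero contains the rational numbers. -/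
theorem exists_ratHom (R : Type u) [CommRing R] [IsLocalRing R] [CharZero (ResidueField R)] :
    Nonempty (ℚ →+* R) := by
  refine ⟨IsLocalization.lift (M := nonZeroDivisors ℤ) (g := Int.castRingHom R) fun z => ?_⟩
  refine IsLocalRing.notMem_maximalIdeal.1 fun h => ?_
  rw [← residue_eq_zero_iff, eq_intCast, map_intCast, Int.cast_eq_zero] at h
  exact nonZeroDivisors.ne_zero z.2 h

/-- Lech's inequality, given the complete case and the inequality for localisations of complete
rings. -/
theorem lechStatement (hL : CompleteLech.{u}) (hN : NagataStatement.{u}) : LechStatement.{u} := by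
  intro R _ _ _ S _ _ _ _ _ _
  obtain ⟨p, hp⟩ := CharP.exists (ResidueField R)
  rcases CharP.char_is_prime_or_zero (ResidueField R) p with hprime | rfl
  · have : Fact p.Prime := ⟨hprime⟩
    obtain ⟨R', iR, iRn, iRl, S', iS, iSn, iSl, f, g, hfm, hinf, hgl, hgf, hR, hS⟩ :=
      exists_infinite_residue R S
    have hp' : (p : R') ∈ maximalIdeal R' := by
      rw [← map_natCast f, ← hfm]
      refine Ideal.mem_map_of_mem f ?_
      rw [← residue_eq_zero_iff, map_natCast]
      exact CharP.cast_eq_zero (ResidueField R) p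
    rw [← hR, ← hS]
    exact lech_residueChar_infinite hL hN p R' hp' S' g hgl hgf
  · have : CharZero (ResidueField R) := CharP.charP_to_charZero _
    obtain ⟨ι⟩ := exists_ratHom R
    exact lech_equalChar R ι S

end Vale.Agent.P202.Mixed.Reduce
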