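import Vale.Agent.P202.Mixed.Reduce.NagataDomain
import Vale.Agent.P202.Mixed.Reduce.Complete

/-!
# P202 mixed characteristic: localisation at a prime containing `p` does not raise the multiplicity
-/

noncomputable section

namespace Vale.Agent.P202.Mixed

open IsLocalRing Filter Topology
open scoped ENNReal

universe u

/-- The inequality for one piece of the devissage. -/
theorem limsup_localPiece_le (hC : CohenStatement.{u}) (hS : SourceStatement.{u}) (p : ℕ)
    [Fact p.Prime] {B : Type u} [CommRing B] [IsLocalRing B] [IsNoetherianRing B]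
    [IsAdicComplete (maximalIdeal B) B] [IsAlgClosed (ResidueField B)] (P : Ideal B) [P.IsPrime]
    (hP : (p : B) ∈ P)
    (hdim : dimNat B ≤ dimNat (B ⧸ P) + dimNat (Localization.AtPrime P))
    (Q : Ideal B) (hQ : Q.IsPrime) :
    limsup (pieceSeq (Q.map (algebraMap B (Localization.AtPrime P)))
        (dimNat (Localization.AtPrime P))) atTop ≤
      liminf (pieceSeq Q (dimNat B)) atTop := by
  let BP := Localization.AtPrime P
  let j : B →+* BP := algebraMap B BP
  by_cases hQP : Q ≤ P
  swap
  · obtain ⟨x, hxQ, hxP⟩ := SetLike.not_le_iff_exists.1 hQP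
    have htop : Q.map j = ⊤ := Ideal.eq_top_of_isUnit_mem _ (Ideal.mem_map_of_mem j hxQ)
      (IsLocalization.map_units BP (⟨x, hxP⟩ : P.primeCompl))
    change limsup (pieceSeq (Q.map j) (dimNat BP)) atTop ≤ _
    rw [htop, show pieceSeq (⊤ : Ideal BP) (dimNat BP) = fun _ => 0 from
      funext (pieceSeq_top (dimNat BP))]
    simp
  let B' := B ⧸ Q
  let mk : B →+* B' := Ideal.Quotient.mk Q
  have hmk : Function.Surjective mk := Ideal.Quotient.mk_surjective
  have hker : RingHom.ker mk = Q := Ideal.mk_ker
  have : IsDomain B' := Ideal.Quotient.isDomain Q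
  have : IsLocalRing B' := IsLocalRing.of_surjective' mk hmk
  have : IsAdicComplete (maximalIdeal B') B' := isAdicComplete_quotient Q
  have : IsAlgClosed (ResidueField B') :=
    IsAlgClosed.of_ringEquiv (ResidueField B) _ (residueQuotientEquiv Q)
  let P' : Ideal B' := P.map mk
  have : P'.IsPrime := Ideal.map_isPrime_of_surjective hmk (hker.trans_le hQP)
  have hcomap : P = P'.comap mk := by
    rw [Ideal.comap_map_of_surjective' mk hmk, hker, sup_eq_left.2 hQP]
  let BP' := Localization.AtPrime P'
  let ψ : BP →+* BP' := Localization.localRingHom P P' mk hcomap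
  have hψ : Function.Surjective ψ := fun y => by
    obtain ⟨a, s, rfl⟩ := IsLocalization.exists_mk'_eq P'.primeCompl y
    obtain ⟨a, rfl⟩ := hmk a
    obtain ⟨t, ht⟩ := hmk (s : B')
    have htP : t ∉ P := fun h => s.2 (by rw [← ht]; exact (SetLike.ext_iff.1 hcomap t).1 h)
    refine ⟨IsLocalization.mk' BP a (⟨t, htP⟩ : P.primeCompl), ?_⟩
    rw [Localization.localRingHom_mk']
    congr 1
    exact Subtype.ext ht
  have hψker : RingHom.ker ψ = Q.map j := by
    refine le_antisymm (fun y hy => ?_) (Ideal.map_le_iff_le_comap.2 fun x hx => ?_)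
    · obtain ⟨a, s, rfl⟩ := IsLocalization.exists_mk'_eq P.primeCompl y
      rw [RingHom.mem_ker, Localization.localRingHom_mk'] at hy
      obtain ⟨t, ht⟩ := (IsLocalization.mk'_eq_zero_iff _ _).1 hy
      obtain ⟨t', ht'⟩ := hmk (t : B')
      rw [← ht', ← map_mul, ← RingHom.mem_ker, hker] at ht
      have ha : a ∈ Q := (hQ.mem_or_mem ht).resolve_left fun h =>
        t.2 (by rw [← ht']; exact (SetLike.ext_iff.1 hcomap t').1 (hQP h))
      exact (IsLocalization.mk'_mem_iff).2 (Ideal.mem_map_of_mem j ha)
    · rw [Ideal.mem_comap, RingHom.mem_ker, Localization.localRingHom_to_map,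
        show mk x = 0 from Ideal.Quotient.eq_zero_iff_mem.2 hx, map_zero]
  rcases lt_or_eq_of_le (dimNat_le_of_surjective ψ hψ) with hlt | heq
  · rw [(tendsto_pieceSeq_zero ψ hψ hψker hlt).limsup_eq]
    exact zero_le
  have : IsLocalRing (B' ⧸ P') :=
    IsLocalRing.of_surjective' (Ideal.Quotient.mk P') Ideal.Quotient.mk_surjective
  have e : dimNat (B ⧸ P) = dimNat (B' ⧸ P') := by
    rw [← dimNat_quotient_comap mk hmk P']
    exact congrArg (fun I : Ideal B => dimNat (B ⧸ I)) hcomap
  have hle : dimNat B' ≤ dimNat B := dimNat_le_of_surjective mk hmk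
  have h2 : dimNat BP' + dimNat (B' ⧸ P') ≤ dimNat B' := by
    have h1 := height_add_ringKrullDim_quotient_le P'
    rw [← IsLocalization.AtPrime.ringKrullDim_eq_height P' BP', coe_dimNat BP',
      coe_dimNat (B' ⧸ P'), coe_dimNat B'] at h1
    exact_mod_cast h1
  have heq' : dimNat BP' = dimNat BP := heq
  have hdim' : dimNat B ≤ dimNat (B ⧸ P) + dimNat BP := hdim
  have hdB : dimNat B' = dimNat B := by omega
  have hfin : dimNat B' ≤ dimNat (B' ⧸ P') + dimNat BP' := by omega
  rw [pieceSeq_eq_hsSeq ψ hψ hψker heq, pieceSeq_eq_hsSeq mk hmk hker hdB]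
  refine nagata_domain hC hS p B' P' ?_ hfin
  rw [← map_natCast mk]
  exact Ideal.mem_map_of_mem mk hP

/-- Localisation at a prime containing `p`, of complementary dimension, does not raise the
multiplicity. -/
theorem nagataStatement (hC : CohenStatement.{u}) (hS : SourceStatement.{u}) :
    NagataStatement.{u} := by
  intro p _ B _ _ _ _ _ P _ hP hdim
  obtain ⟨n, I, a, h0, hn, hI⟩ := exists_prime_chain B
  let j : B →+* Localization.AtPrime P := algebraMap B (Localization.AtPrime P)
  refine le_trans (limsup_hsSeq_le_sum (I := fun i => (I i).map j) (a := fun i => j (a i))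
    (J := fun i => (colonOf (I i) (a i)).map j) (n := n) (by rw [h0, Ideal.map_bot])
    (by rw [hn, Ideal.map_top])
    (fun i hi => by rw [(hI i hi).1, Ideal.map_sup, Ideal.map_span, Set.image_singleton])
    fun i _ x hx => mul_mem_map_of_mem_map_colonOf j (I i) (a i) hx) ?_
  refine le_trans ?_ (sum_liminf_le_hsSeq (J := fun i => colonOf (I i) (a i)) h0
    (fun i hi => (hI i hi).1.ge) fun i _ x hx => hx)
  exact Finset.sum_le_sum fun i hi =>
    limsup_localPiece_le hC hS p P hP hdim _ (hI i (Finset.mem_range.1 hi)).2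

end Vale.Agent.P202.Mixed
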