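import Vale.Agent.P202.Imperfect.Tools
import Vale.Agent.P202.RingSide.Hilbert

/-!
# P202 mixed characteristic: chains of ideals with prime quotients and additivity of multiplicities
-/

noncomputable section

namespace Vale.Agent.P202.Mixed

open IsLocalRing Filter Topology
open scoped ENNReal

/-- The ideal of the multipliers of `a` into `I`. -/
def colonOf {A : Type*} [CommRing A] (I : Ideal A) (a : A) : Ideal A :=
  Submodule.comap (LinearMap.mulRight A a) I

theorem mem_colonOf {A : Type*} [CommRing A] {I : Ideal A} {a x : A} :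
    x ∈ colonOf I a ↔ x * a ∈ I :=
  Iff.rfl

/-- Every Noetherian ring has a chain of ideals whose steps are principal with prime colon. -/
theorem exists_prime_chain (A : Type*) [CommRing A] [IsNoetherianRing A] :
    ∃ (n : ℕ) (I : ℕ → Ideal A) (a : ℕ → A), I 0 = ⊥ ∧ I n = ⊤ ∧
      ∀ i < n, I (i + 1) = I i ⊔ Ideal.span {a i} ∧ (colonOf (I i) (a i)).IsPrime := by
  classical
  suffices ∀ I₀ : Ideal A, ∃ (n : ℕ) (I : ℕ → Ideal A) (a : ℕ → A), I 0 = I₀ ∧ I n = ⊤ ∧
      ∀ i < n, I (i + 1) = I i ⊔ Ideal.span {a i} ∧ (colonOf (I i) (a i)).IsPrime from this ⊥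
  intro I₀
  induction I₀ using (wellFounded_gt : WellFounded ((· > ·) : Ideal A → Ideal A → Prop)).induction
    with
  | _ I₀ ih =>
    by_cases htop : I₀ = ⊤
    · exact ⟨0, fun _ => I₀, fun _ => 0, rfl, htop, fun i hi => absurd hi (Nat.not_lt_zero i)⟩
    obtain ⟨J, ⟨a, ha, rfl⟩, hmax⟩ := (set_has_maximal_iff_noetherian (R := A) (M := A)).2
      inferInstance {J | ∃ a : A, a ∉ I₀ ∧ colonOf I₀ a = J}
      ⟨_, 1, fun h => htop ((Ideal.eq_top_iff_one _).2 h), rfl⟩
    have hprime : (colonOf I₀ a).IsPrime := by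
      refine ⟨fun h => ha ?_, fun {x y} hxy => ?_⟩
      · simpa [mem_colonOf] using (Ideal.eq_top_iff_one _).1 h
      · by_contra hh
        rw [not_or] at hh
        have hle : colonOf I₀ a ≤ colonOf I₀ (x * a) := fun z hz => by
          rw [mem_colonOf, mul_left_comm]
          exact I₀.mul_mem_left x hz
        have heq : colonOf I₀ (x * a) = colonOf I₀ a := by
          by_contra hne
          exact hmax _ ⟨x * a, hh.1, rfl⟩ (lt_of_le_of_ne hle (Ne.symm hne))
        exact hh.2 (heq ▸ (mem_colonOf.2 (by rwa [mem_colonOf, mul_comm x y, mul_assoc] at hxy)))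
    have hlt : I₀ < I₀ ⊔ Ideal.span {a} :=
      left_lt_sup.2 fun h => ha (h (Ideal.mem_span_singleton_self a))
    obtain ⟨n, I, b, h0, hn, hstep⟩ := ih _ hlt
    refine ⟨n + 1, fun i => i.casesOn I₀ I, fun i => i.casesOn a b, rfl, hn, fun i hi => ?_⟩
    rcases i with _ | i
    · exact ⟨h0, hprime⟩
    · exact hstep i (Nat.succ_lt_succ_iff.1 hi)

variable {A : Type*} [CommRing A] [IsLocalRing A]

/-- `d! * ℓ(A / (J + m ^ N)) / N ^ d`. -/
def pieceSeq (J : Ideal A) (d N : ℕ) : ℝ≥0∞ :=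
  (d.factorial : ℝ≥0∞) *
    ((Module.length A (A ⧸ (J ⊔ maximalIdeal A ^ N)) : ℕ∞) : ℝ≥0∞) / (N : ℝ≥0∞) ^ d

theorem hsSeq_eq_pieceSeq (N : ℕ) : hsSeq A N = pieceSeq (⊥ : Ideal A) (dimNat A) N := by
  rw [pieceSeq, bot_sup_eq]; rfl

theorem pieceSeq_top (d N : ℕ) : pieceSeq (⊤ : Ideal A) d N = 0 := by
  rw [pieceSeq, top_sup_eq, show Module.length A (A ⧸ (⊤ : Ideal A)) = 0 by
    rw [Module.length_eq_zero_iff]; exact Submodule.Quotient.subsingleton_iff.2 rfl]
  simp

variable {n : ℕ} {I J : ℕ → Ideal A} {a : ℕ → A}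

theorem length_le_sum_pieces (h0 : I 0 = ⊥) (hn : I n = ⊤)
    (hstep : ∀ i < n, I (i + 1) ≤ I i ⊔ Ideal.span {a i})
    (hJ : ∀ i < n, ∀ x ∈ J i, x * a i ∈ I i) (N : ℕ) :
    Module.length A (A ⧸ maximalIdeal A ^ N) ≤
      ∑ i ∈ Finset.range n, Module.length A (A ⧸ (J i ⊔ maximalIdeal A ^ N)) := by
  set M := maximalIdeal A ^ N
  suffices ∀ k ≤ n, Module.length A (A ⧸ M) ≤
      ∑ i ∈ Finset.range k, Module.length A (A ⧸ (J i ⊔ M)) + Module.length A (A ⧸ (I k ⊔ M)) by
    refine (this n le_rfl).trans (le_of_eq ?_)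
    rw [hn, top_sup_eq, show Module.length A (A ⧸ (⊤ : Ideal A)) = 0 by
      rw [Module.length_eq_zero_iff]; exact Submodule.Quotient.subsingleton_iff.2 rfl, add_zero]
  intro k
  induction k with
  | zero => intro _; rw [h0, bot_sup_eq]; simp
  | succ k ih =>
    intro hk
    refine (ih (by omega)).trans ?_
    rw [Finset.sum_range_succ, add_assoc]
    refine add_le_add le_rfl ?_
    have hle : I k ⊔ M ≤ I k ⊔ I (k + 1) ⊔ M := sup_le_sup_right le_sup_left _
    rw [length_quotient_eq_add hle]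
    refine add_le_add ?_ (length_quotient_mono (sup_le_sup_right le_sup_right _))
    refine (length_map_mkQ_le {a k} (J := J k ⊔ M) ?_ ?_).trans (by simp)
    · rw [Finset.coe_singleton]
      refine sup_le (sup_le (le_sup_of_le_right le_sup_left) ((hstep k (by omega)).trans ?_))
        (le_sup_of_le_right le_sup_right)
      exact sup_le (le_sup_of_le_right le_sup_left) le_sup_left
    · intro b hb c hc
      rw [Finset.mem_singleton] at hb
      subst hb
      obtain ⟨u, hu, v, hv, rfl⟩ := Submodule.mem_sup.1 hc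
      rw [add_mul]
      exact Submodule.add_mem_sup (hJ k (by omega) u hu) (M.mul_mem_right _ hv)

variable [IsNoetherianRing A]

omit [IsLocalRing A] [IsNoetherianRing A] in
theorem length_quotient_le_of_ker_le {M : Type*} [AddCommGroup M] [Module A M] (f : A →ₗ[A] M)
    (K : Ideal A) (h : LinearMap.ker f ≤ K) : Module.length A (A ⧸ K) ≤ Module.length A M := by
  refine (length_quotient_mono h).trans ?_
  have hinj : Function.Injective ((LinearMap.ker f).liftQ f le_rfl) :=
    LinearMap.ker_eq_bot.1 (Submodule.ker_liftQ_eq_bot _ _ _ le_rfl)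
  exact Module.length_le_of_injective _ hinj

theorem exists_step_le (I₀ I₁ J₀ : Ideal A) (b : A) (hstep : I₀ ⊔ Ideal.span {b} ≤ I₁)
    (hJ : ∀ x, x * b ∈ I₀ → x ∈ J₀) :
    ∃ c, ∀ N, c ≤ N →
      Module.length A (A ⧸ (J₀ ⊔ maximalIdeal A ^ (N - c))) +
        Module.length A (A ⧸ (I₁ ⊔ maximalIdeal A ^ N)) ≤
      Module.length A (A ⧸ (I₀ ⊔ maximalIdeal A ^ N)) := by
  obtain ⟨c, hc⟩ := Ideal.exists_pow_inf_eq_pow_smul (maximalIdeal A)
    (M := A) (I₀ ⊔ Ideal.span {b})
  refine ⟨c, fun N hN => ?_⟩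
  set M := maximalIdeal A ^ N
  set M' := maximalIdeal A ^ (N - c)
  set F := I₀ ⊔ M
  set F' := I₀ ⊔ Ideal.span {b} ⊔ M
  have hFF' : F ≤ F' := sup_le_sup_right le_sup_left _
  rw [length_quotient_eq_add hFF']
  refine add_le_add ?_ (length_quotient_mono (sup_le_sup_right hstep _))
  let f : A →ₗ[A] ↥(Submodule.map F.mkQ F') :=
    LinearMap.codRestrict _ (F.mkQ.comp (LinearMap.mulRight A b)) fun x =>
      Submodule.mem_map_of_mem (Submodule.mem_sup_left (Submodule.mem_sup_right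
        (Ideal.mul_mem_left _ x (Ideal.mem_span_singleton_self b))))
  have hker : LinearMap.ker f ≤ J₀ ⊔ M' := by
    intro x hx
    have hx' : x * b ∈ F := by
      exact (Submodule.Quotient.mk_eq_zero F).1 (congrArg Subtype.val (LinearMap.mem_ker.1 hx))
    obtain ⟨u, hu, v, hv, huv⟩ := Submodule.mem_sup.1 hx'
    have hv' : v ∈ M' • ((maximalIdeal A ^ c) • (⊤ : Submodule A A) ⊓ (I₀ ⊔ Ideal.span {b})) := by
      rw [← hc N hN]
      refine ⟨by simpa using hv, ?_⟩
      have hb : x * b ∈ I₀ ⊔ Ideal.span {b} :=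
        Submodule.mem_sup_right (Ideal.mul_mem_left _ x (Ideal.mem_span_singleton_self b))
      have := sub_mem hb (Submodule.mem_sup_left hu : u ∈ I₀ ⊔ Ideal.span {b})
      rwa [show x * b - u = v by rw [← huv]; ring] at this
    have hv'' : v ∈ M' * (I₀ ⊔ Ideal.span {b}) :=
      Submodule.smul_mono le_rfl inf_le_right hv'
    rw [Ideal.mul_sup] at hv''
    obtain ⟨u', hu', w, hw, rfl⟩ := Submodule.mem_sup.1 hv''
    obtain ⟨z, hz, rfl⟩ := Ideal.mem_mul_span_singleton.1 hw
    have hxz : x - z ∈ J₀ := by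
      refine hJ _ ?_
      rw [show (x - z) * b = u + u' by rw [sub_mul, ← huv]; ring]
      exact add_mem hu ((Ideal.mul_le (I := M')).2 (fun r _ s hs => I₀.mul_mem_left r hs) hu')
    exact sub_add_cancel x z ▸ Submodule.add_mem_sup hxz hz
  exact length_quotient_le_of_ker_le f _ hker

theorem exists_sum_pieces_le_length (h0 : I 0 = ⊥) (hstep : ∀ i < n, I i ⊔ Ideal.span {a i} ≤
    I (i + 1)) (hJ : ∀ i < n, ∀ x, x * a i ∈ I i → x ∈ J i) :
    ∃ c, ∀ N, ∑ i ∈ Finset.range n, Module.length A (A ⧸ (J i ⊔ maximalIdeal A ^ N)) ≤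
      Module.length A (A ⧸ maximalIdeal A ^ (N + c)) := by
  suffices ∀ k ≤ n, ∃ c, ∀ N, c ≤ N →
      ∑ i ∈ Finset.range k, Module.length A (A ⧸ (J i ⊔ maximalIdeal A ^ (N - c))) +
        Module.length A (A ⧸ (I k ⊔ maximalIdeal A ^ N)) ≤
      Module.length A (A ⧸ maximalIdeal A ^ N) by
    obtain ⟨c, hc⟩ := this n le_rfl
    refine ⟨c, fun N => ?_⟩
    have := hc (N + c) le_add_self
    rw [Nat.add_sub_cancel] at this
    exact le_self_add.trans this
  intro k
  induction k with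
  | zero => exact fun _ => ⟨0, fun N _ => by rw [h0, bot_sup_eq]; simp⟩
  | succ k ih =>
    intro hk
    obtain ⟨c, hc⟩ := ih (by omega)
    obtain ⟨c', hc'⟩ := exists_step_le (I k) (I (k + 1)) (J k) (a k) (hstep k (by omega))
      (hJ k (by omega))
    refine ⟨max c c', fun N hN => le_trans ?_ (hc N (le_trans (le_max_left _ _) hN))⟩
    have hmono : ∀ i c'', c'' ≤ max c c' →
        Module.length A (A ⧸ (J i ⊔ maximalIdeal A ^ (N - max c c'))) ≤
          Module.length A (A ⧸ (J i ⊔ maximalIdeal A ^ (N - c''))) := fun i c'' h =>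
      length_quotient_mono (sup_le_sup_left (Ideal.pow_le_pow_right (by omega)) _)
    rw [Finset.sum_range_succ, add_assoc]
    refine add_le_add (Finset.sum_le_sum fun i _ => hmono i c (le_max_left _ _)) ?_
    exact (add_le_add (hmono k c' (le_max_right _ _)) le_rfl).trans
      (hc' N ((le_max_right _ _).trans hN))

omit [IsNoetherianRing A] in
theorem limsup_add_le_ennreal (u v : ℕ → ℝ≥0∞) :
    limsup (fun N => u N + v N) atTop ≤ limsup u atTop + limsup v atTop := by
  simp only [limsup_eq_iInf_iSup_of_nat']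
  refine le_of_le_of_eq ?_ (ENNReal.iInf_add_iInf (f := fun n => ⨆ k, u (k + n))
    (g := fun n => ⨆ k, v (k + n)) fun i j => ⟨max i j, add_le_add
    (iSup_le fun k => le_iSup_of_le (k + (max i j - i)) (le_of_eq (congrArg u (by omega))))
    (iSup_le fun k => le_iSup_of_le (k + (max i j - j)) (le_of_eq (congrArg v (by omega))))⟩).symm
  exact iInf_mono fun i => iSup_le fun k => add_le_add (le_iSup (fun m => u (m + i)) k)
    (le_iSup (fun m => v (m + i)) k)

omit [IsNoetherianRing A] in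
theorem le_liminf_add_ennreal (u v : ℕ → ℝ≥0∞) :
    liminf u atTop + liminf v atTop ≤ liminf (fun N => u N + v N) atTop := by
  simp only [liminf_eq_iSup_iInf_of_nat']
  refine le_of_eq_of_le (ENNReal.iSup_add_iSup (f := fun n => ⨅ k, u (k + n))
    (g := fun n => ⨅ k, v (k + n)) fun i j => ⟨max i j, add_le_add
    (le_iInf fun k => iInf_le_of_le (k + (max i j - i)) (le_of_eq (congrArg u (by omega))))
    (le_iInf fun k => iInf_le_of_le (k + (max i j - j)) (le_of_eq (congrArg v (by omega))))⟩) ?_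
  exact iSup_mono fun i => le_iInf fun k => add_le_add (iInf_le (fun m => u (m + i)) k)
    (iInf_le (fun m => v (m + i)) k)

omit [IsNoetherianRing A] in
theorem limsup_sum_le {ι : Type*} (s : Finset ι) (u : ι → ℕ → ℝ≥0∞) :
    limsup (fun N => ∑ i ∈ s, u i N) atTop ≤ ∑ i ∈ s, limsup (u i) atTop := by
  classical
  induction s using Finset.induction_on with
  | empty => simp
  | insert i s hi ih =>
    simp only [Finset.sum_insert hi]
    exact (limsup_add_le_ennreal _ _).trans
      (add_le_add le_rfl ih)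

omit [IsNoetherianRing A] in
theorem sum_liminf_le {ι : Type*} (s : Finset ι) (u : ι → ℕ → ℝ≥0∞) :
    ∑ i ∈ s, liminf (u i) atTop ≤ liminf (fun N => ∑ i ∈ s, u i N) atTop := by
  classical
  induction s using Finset.induction_on with
  | empty => simp
  | insert i s hi ih =>
    simp only [Finset.sum_insert hi]
    exact (add_le_add le_rfl ih).trans (le_liminf_add_ennreal _ _)

omit [IsNoetherianRing A] in
/-- The upper bound along a chain. -/
theorem limsup_hsSeq_le_sum (h0 : I 0 = ⊥) (hn : I n = ⊤)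
    (hstep : ∀ i < n, I (i + 1) ≤ I i ⊔ Ideal.span {a i})
    (hJ : ∀ i < n, ∀ x ∈ J i, x * a i ∈ I i) :
    limsup (hsSeq A) atTop ≤
      ∑ i ∈ Finset.range n, limsup (pieceSeq (J i) (dimNat A)) atTop := by
  refine le_trans (limsup_le_limsup (Eventually.of_forall fun N => ?_)) (limsup_sum_le _ _)
  simp only [hsSeq, pieceSeq, div_eq_mul_inv, ← Finset.sum_mul, ← Finset.mul_sum]
  refine mul_le_mul' (mul_le_mul' le_rfl ?_) le_rfl
  refine (ENat.toENNReal_le.2 (length_le_sum_pieces h0 hn hstep hJ N)).trans_eq ?_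
  exact map_sum ENat.toENNRealRingHom _ _

/-- The lower bound along a chain. -/
theorem sum_liminf_le_hsSeq (h0 : I 0 = ⊥)
    (hstep : ∀ i < n, I i ⊔ Ideal.span {a i} ≤ I (i + 1))
    (hJ : ∀ i < n, ∀ x, x * a i ∈ I i → x ∈ J i) :
    ∑ i ∈ Finset.range n, liminf (pieceSeq (J i) (dimNat A)) atTop ≤
      liminf (hsSeq A) atTop := by
  obtain ⟨c, hc⟩ := exists_sum_pieces_le_length h0 hstep hJ
  refine (sum_liminf_le _ _).trans ?_
  set d := dimNat A
  set S := fun N => ∑ i ∈ Finset.range n, pieceSeq (J i) d N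
  set ρ := fun N : ℕ => (N : ℝ≥0∞) ^ d / ((N + c : ℕ) : ℝ≥0∞) ^ d
  have hρ : liminf ρ atTop = 1 := (tendsto_pow_div_add_pow c d).liminf_eq
  rw [← liminf_nat_add (hsSeq A) c, ← mul_one (liminf S atTop), ← hρ]
  refine le_trans ENNReal.le_liminf_mul (liminf_le_liminf ?_)
  filter_upwards [eventually_gt_atTop 0] with N hN
  have hN0 : (N : ℝ≥0∞) ^ d ≠ 0 := pow_ne_zero _ (by exact_mod_cast hN.ne')
  have hNt : (N : ℝ≥0∞) ^ d ≠ ⊤ := ENNReal.pow_ne_top (ENNReal.natCast_ne_top _)
  simp only [Pi.mul_apply, S, ρ, pieceSeq, hsSeq, div_eq_mul_inv, ← Finset.sum_mul, ← Finset.mul_sum]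
  rw [show ∀ X Y P Q R : ℝ≥0∞, X * Y * P * (Q * R) = X * Y * R * (P * Q) by intros; ring,
    ENNReal.inv_mul_cancel hN0 hNt, mul_one]
  refine mul_le_mul' (mul_le_mul' le_rfl ?_) le_rfl
  refine le_trans (le_of_eq ?_) (ENat.toENNReal_le.2 (hc N))
  exact (map_sum ENat.toENNRealRingHom _ _).symm

end Vale.Agent.P202.Mixed
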