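import Vale.Agent.P202.Mixed.Defs
import Vale.Agent.P202.Mixed.Source.Tools
import Vale.Agent.P202.Reduce.CutLocal
import Vale.Agent.P202.Reduce.CutDim

/-!
# P202 mixed characteristic: generators of the localisation of power series over a Cohen ring at a
prime containing `p`
-/

noncomputable section

namespace Vale.Agent.P202.Mixed

open IsLocalRing

universe u

/-- A local ring whose colength of `m ^ 2` is at most `h + 1` has `h` generators of `m`. -/
theorem exists_span_eq_maximalIdeal {B : Type*} [CommRing B] [IsLocalRing B] [IsNoetherianRing B]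
    {h : ℕ} (hB : Module.length B (B ⧸ maximalIdeal B ^ 2) ≤ ((h + 1 : ℕ) : ℕ∞)) :
    ∃ x : Fin h → B, Ideal.span (Set.range x) = maximalIdeal B := by
  set m := maximalIdeal B
  suffices ∀ k, ∃ x : Fin k → B, Ideal.span (Set.range x) ≤ m ∧
      (Ideal.span (Set.range x) ⊔ m ^ 2 = m ∨
        Module.length B (B ⧸ (Ideal.span (Set.range x) ⊔ m ^ 2)) + k ≤ ((h + 1 : ℕ) : ℕ∞)) by
    obtain ⟨x, hxm, hx⟩ := this h
    have heq : Ideal.span (Set.range x) ⊔ m ^ 2 = m := by
      rcases hx with hx | hx
      · exact hx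
      · have hle : Ideal.span (Set.range x) ⊔ m ^ 2 ≤ m :=
          sup_le hxm (Ideal.pow_le_self two_ne_zero)
        rw [length_quotient_eq_add hle, length_quotient_maximalIdeal, Nat.cast_add, Nat.cast_one,
          add_comm (h : ℕ∞) 1, add_assoc] at hx
        have h0 : Module.length B (Submodule.map (Ideal.span (Set.range x) ⊔ m ^ 2).mkQ m) = 0 := by
          have h1 : Module.length B (Submodule.map (Ideal.span (Set.range x) ⊔ m ^ 2).mkQ m) +
              (1 + h : ℕ∞) ≤ 0 + (1 + h : ℕ∞) := by rwa [zero_add]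
          exact nonpos_iff_eq_zero.1 ((ENat.add_le_add_iff_right
            (WithTop.add_ne_top.2 ⟨ENat.one_ne_top, ENat.natCast_ne_top h⟩)).1 h1)
        refine le_antisymm hle fun a ha => ?_
        have := (Module.length_eq_zero_iff.1 h0).elim
          (⟨_, Submodule.mem_map_of_mem ha⟩ : Submodule.map _ m) 0
        exact (Submodule.Quotient.mk_eq_zero _).1 (congrArg Subtype.val this)
    refine ⟨x, le_antisymm hxm ?_⟩
    refine Submodule.le_of_le_smul_of_le_jacobson_bot (I := m) (N := Ideal.span (Set.range x))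
      (IsNoetherian.noetherian m) (IsLocalRing.maximalIdeal_le_jacobson ⊥) ?_
    rw [smul_eq_mul, ← sq, heq]
  intro k
  induction k with
  | zero =>
    refine ⟨Fin.elim0, by simp, Or.inr ?_⟩
    rw [Set.range_eq_empty (Fin.elim0 : Fin 0 → B), Ideal.span_empty, bot_sup_eq, Nat.cast_zero,
      add_zero]
    exact hB
  | succ k ih =>
    obtain ⟨x, hxm, hx⟩ := ih
    by_cases heq : Ideal.span (Set.range x) ⊔ m ^ 2 = m
    · refine ⟨Fin.cons 0 x, ?_, Or.inl ?_⟩
      · rwa [Fin.range_cons, Ideal.span_insert, Ideal.span_singleton_eq_bot.2 rfl, bot_sup_eq]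
      · rwa [Fin.range_cons, Ideal.span_insert, Ideal.span_singleton_eq_bot.2 rfl, bot_sup_eq]
    have hle : Ideal.span (Set.range x) ⊔ m ^ 2 ≤ m := sup_le hxm (Ideal.pow_le_self two_ne_zero)
    obtain ⟨a, ham, ha⟩ := SetLike.exists_of_lt (lt_of_le_of_ne hle heq)
    refine ⟨Fin.cons a x, ?_, Or.inr ?_⟩
    · rw [Fin.range_cons, Ideal.span_insert, sup_le_iff, Ideal.span_singleton_le_iff_mem]
      exact ⟨ham, hxm⟩
    have hx' := hx.resolve_left heq
    set I := Ideal.span (Set.range x) ⊔ m ^ 2
    set I' := Ideal.span (Set.range (Fin.cons a x)) ⊔ m ^ 2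
    have hII' : I ≤ I' := by
      refine sup_le_sup_right (Ideal.span_mono ?_) _
      rw [Fin.range_cons]; exact Set.subset_insert _ _
    have haI' : a ∈ I' := Ideal.mem_sup_left (Ideal.subset_span ⟨0, rfl⟩)
    have h1 : 1 ≤ Module.length B (Submodule.map I.mkQ I') := by
      rw [Order.one_le_iff_pos, pos_iff_ne_zero]
      intro h0
      have := (Module.length_eq_zero_iff.1 h0).elim
        (⟨_, Submodule.mem_map_of_mem haI'⟩ : Submodule.map I.mkQ I') 0
      exact ha ((Submodule.Quotient.mk_eq_zero _).1 (congrArg Subtype.val this))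
    refine le_trans ?_ hx'
    rw [length_quotient_eq_add hII', Nat.cast_add, Nat.cast_one, add_comm (k : ℕ∞) 1, ← add_assoc,
      add_comm (Module.length B (Submodule.map I.mkQ I'))]
    exact add_le_add (add_le_add le_rfl h1) le_rfl

variable {p : ℕ} {C : Type u} [CommRing C] [IsLocalRing C]

theorem map_residue_eq_zero (hC : IsCohen p C) {σ : Type*} {F : MvPowerSeries σ C}
    (hF : MvPowerSeries.map (residue C) F = 0) :
    F ∈ Ideal.span {(p : MvPowerSeries σ C)} := by
  classical
  have h : ∀ t, ∃ b, b * (p : C) = MvPowerSeries.coeff t F := fun t => by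
    have := congrArg (MvPowerSeries.coeff t) hF
    rw [MvPowerSeries.coeff_map, map_zero, residue_eq_zero_iff, hC.max_eq,
      Ideal.mem_span_singleton'] at this
    exact this
  choose b hb using h
  let G : MvPowerSeries σ C := fun t => b t
  have hG : ∀ t, MvPowerSeries.coeff t G = b t := fun t => rfl
  refine Ideal.mem_span_singleton'.2 ⟨G, ?_⟩
  ext t
  rw [← map_natCast (MvPowerSeries.C (σ := σ)), MvPowerSeries.coeff_mul_C, hG]
  exact hb t

/-- The localisation at a prime containing `p` of complementary dimension has `h + 1` generators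
of its maximal ideal. -/
theorem exists_generators_atPrime (hC : IsCohen p C) [Infinite (ResidueField C)] {n : ℕ}
    (P : Ideal (MvPowerSeries (Fin n) C)) [P.IsPrime] (hp : (p : MvPowerSeries (Fin n) C) ∈ P)
    {h : ℕ} (hd : n ≤ dimNat (MvPowerSeries (Fin n) C ⧸ P) + h) :
    ∃ x : Fin (h + 1) → Localization.AtPrime P,
      Ideal.span (Set.range x) = maximalIdeal (Localization.AtPrime P) := by
  classical
  let V := MvPowerSeries (Fin n) C
  let W := MvPowerSeries (Fin n) (ResidueField C)
  let π : V →+* W := MvPowerSeries.map (residue C)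
  have hπ : Function.Surjective π := fun G => by
    choose c hc using fun t => residue_surjective (R := C) (MvPowerSeries.coeff t G)
    let F : V := fun t => c t
    have hF : ∀ t, MvPowerSeries.coeff t F = c t := fun t => rfl
    refine ⟨F, ?_⟩
    ext t
    rw [MvPowerSeries.coeff_map, hF]
    exact hc t
  have hker : RingHom.ker π ≤ P := fun F hF =>
    (Ideal.span_singleton_le_iff_mem _).2 hp (map_residue_eq_zero hC hF)
  set Q := P.map π with hQ
  have hQp : Q.IsPrime := Ideal.map_isPrime_of_surjective hπ hker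
  have hPQ : P = Q.comap π := by
    rw [hQ, Ideal.comap_map_of_surjective' π hπ, sup_eq_left.2 hker]
  have hdim : dimNat (W ⧸ Q) = dimNat (V ⧸ P) := by
    have hk : RingHom.ker ((Ideal.Quotient.mk Q).comp π) = P := by
      rw [← RingHom.comap_ker, Ideal.mk_ker, ← hPQ]
    have e := RingHom.quotientKerEquivOfSurjective (f := (Ideal.Quotient.mk Q).comp π)
      (Ideal.Quotient.mk_surjective.comp hπ)
    rw [dimNat, dimNat, ← ringKrullDim_eq_of_ringEquiv e,
      ringKrullDim_eq_of_ringEquiv (Ideal.quotEquivOfEq hk)]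
  have hlen := length_atPrime_pow_le Q (h := h) (by rw [hdim]; exact hd) 2
  rw [show monCount h 2 = h + 1 by simp [monCount, Finset.sum_range_succ, add_comm]] at hlen
  obtain ⟨y, hy⟩ := exists_span_eq_maximalIdeal hlen
  choose w hw using fun i => IsLocalization.exists_mk'_eq Q.primeCompl (y i)
  choose s hs using hw
  choose v hv using fun i => hπ (w i)
  let jW : W →+* Localization.AtPrime Q := algebraMap W _
  have hyw : Ideal.span (Set.range fun i => jW (w i)) = maximalIdeal (Localization.AtPrime Q) := by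
    rw [← hy]
    have hkey : ∀ i, jW (w i) = y i * jW (s i : W) := fun i => by
      rw [← hs i]; exact (IsLocalization.mk'_spec _ _ _).symm
    refine le_antisymm (Ideal.span_le.2 ?_) (Ideal.span_le.2 ?_)
    · rintro _ ⟨i, rfl⟩
      simp only [SetLike.mem_coe, hkey]
      exact Ideal.mul_mem_right _ _ (Ideal.subset_span ⟨i, rfl⟩)
    · rintro _ ⟨i, rfl⟩
      obtain ⟨u, hu⟩ := IsLocalization.map_units (Localization.AtPrime Q) (s i)
      have : y i = jW (w i) * (↑u⁻¹ : Localization.AtPrime Q) := by
        rw [hkey, mul_assoc, show jW (s i : W) = ↑u from hu.symm, Units.mul_inv, mul_one]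
      rw [SetLike.mem_coe, this]
      exact Ideal.mul_mem_right _ _ (Ideal.subset_span ⟨i, rfl⟩)
  let j : V →+* Localization.AtPrime P := algebraMap V _
  let J : Ideal V := Ideal.span (Set.range (Fin.cons (p : V) v))
  have hvP : J ≤ P := by
    rw [Ideal.span_le]
    rintro _ ⟨i, rfl⟩
    induction i using Fin.cases with
    | zero => simpa using hp
    | succ i =>
      have : jW (w i) ∈ maximalIdeal (Localization.AtPrime Q) := hyw ▸ Ideal.subset_span ⟨i, rfl⟩
      rw [IsLocalization.AtPrime.to_map_mem_maximal_iff (Localization.AtPrime Q) Q] at this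
      rw [Fin.cons_succ, SetLike.mem_coe, hPQ, Ideal.mem_comap, hv]
      exact this
  refine ⟨fun i => j ((Fin.cons (p : V) v : Fin (h + 1) → V) i), le_antisymm ?_ ?_⟩
  · rw [← Localization.AtPrime.map_eq_maximalIdeal, Set.range_comp' j, ← Ideal.map_span]
    exact Ideal.map_mono hvP
  rw [← Localization.AtPrime.map_eq_maximalIdeal, Ideal.map_le_iff_le_comap]
  intro a ha
  have haQ : π a ∈ Q := Ideal.mem_map_of_mem π ha
  have h1 : jW (π a) ∈ (Ideal.span (Set.range w)).map jW := by
    rw [Ideal.map_span, ← Set.range_comp]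
    show jW (π a) ∈ Ideal.span (Set.range fun i => jW (w i))
    rw [hyw]
    exact (IsLocalization.AtPrime.to_map_mem_maximal_iff _ Q (π a)).2 haQ
  obtain ⟨t, ht, hta⟩ := (IsLocalization.algebraMap_mem_map_algebraMap_iff Q.primeCompl _ _ _).1 h1
  obtain ⟨t, rfl⟩ := hπ t
  have hJW : J.map π ≥ Ideal.span (Set.range w) := by
    rw [ge_iff_le, Ideal.span_le]
    rintro _ ⟨i, rfl⟩
    rw [← hv i]
    exact Ideal.mem_map_of_mem π (Ideal.subset_span ⟨i.succ, Fin.cons_succ ..⟩)
  have hmem : t * a ∈ J := by
    have h2 : π (t * a) ∈ J.map π := by rw [map_mul]; exact hJW hta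
    obtain ⟨b, hb, hab⟩ := (Ideal.mem_map_iff_of_surjective π hπ).1 h2
    have h3 : t * a - b ∈ Ideal.span {(p : V)} :=
      map_residue_eq_zero hC (show π (t * a - b) = 0 by rw [map_sub, hab, sub_self])
    have h4 : Ideal.span {(p : V)} ≤ J :=
      (Ideal.span_singleton_le_iff_mem _).2 (Ideal.subset_span ⟨0, Fin.cons_zero ..⟩)
    simpa using add_mem hb (h4 h3)
  have htP : t ∉ P := fun htP => ht (Ideal.mem_map_of_mem π htP)
  have h5 : j a ∈ J.map j :=
    (IsLocalization.algebraMap_mem_map_algebraMap_iff P.primeCompl _ _ _).2 ⟨t, htP, hmem⟩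
  rw [Ideal.map_span, ← Set.range_comp] at h5
  exact h5

end Vale.Agent.P202.Mixed
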