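import Vale.Agent.P202.Mixed.Reduce.Box

/-!
# P202 mixed characteristic: quotients of a local ring with few generators by one element
-/

noncomputable section

namespace Vale.Agent.P202.Mixed

open IsLocalRing BoxStep

variable {R : Type*} [CommRing R] {h : ℕ}

/-- Exponents of total degree less than `N` with a small entry. -/
theorem card_small_exponents_le (N : ℕ) (α₀ : Fin (h + 1) → ℕ) :
    (((Finset.range N).biUnion (expo (h + 1))).filter fun α => ∃ i, α i < α₀ i).card ≤
      (∑ i, α₀ i) * monCount h N := by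
  classical
  set A := (Finset.range N).biUnion (expo (h + 1))
  set B := (Finset.range N).biUnion (expo h)
  have hB : B.card ≤ monCount h N := by
    refine Finset.card_biUnion_le.trans (le_of_eq ?_)
    simp [monCount, card_expo]
  have hfib : ∀ (i : Fin (h + 1)) (v : ℕ), (A.filter fun α => α i = v).card ≤ monCount h N := by
    intro i v
    refine le_trans (Finset.card_le_card_of_injOn (fun α => i.removeNth α) ?_ ?_) hB
    · intro α hα
      obtain ⟨hαA, -⟩ := Finset.mem_filter.1 hα
      obtain ⟨j, hj, hαj⟩ := Finset.mem_biUnion.1 hαA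
      rw [mem_expo, Fin.sum_univ_succAbove _ i] at hαj
      refine Finset.mem_biUnion.2 ⟨∑ k, i.removeNth α k, ?_, mem_expo.2 rfl⟩
      have := Finset.mem_range.1 hj
      simp only [Finset.mem_range, Fin.removeNth_apply]
      omega
    · intro α hα β hβ hab
      have h1 := (Finset.mem_filter.1 hα).2
      have h2 := (Finset.mem_filter.1 hβ).2
      simp only at hab
      rw [← Fin.insertNth_self_removeNth i α, ← Fin.insertNth_self_removeNth i β, hab, h1, h2]
  calc (A.filter fun α => ∃ i, α i < α₀ i).card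
      ≤ (Finset.univ.biUnion fun i =>
          (Finset.range (α₀ i)).biUnion fun v => A.filter fun α => α i = v).card := by
        refine Finset.card_le_card fun α hα => ?_
        obtain ⟨hA, i, hi⟩ := Finset.mem_filter.1 hα
        exact Finset.mem_biUnion.2 ⟨i, Finset.mem_univ i, Finset.mem_biUnion.2
          ⟨α i, Finset.mem_range.2 hi, Finset.mem_filter.2 ⟨hA, rfl⟩⟩⟩
    _ ≤ ∑ i, α₀ i * monCount h N := by
        refine Finset.card_biUnion_le.trans (Finset.sum_le_sum fun i _ => ?_)
        refine (Finset.card_biUnion_le_card_mul _ _ _ fun v _ => hfib i v).trans (le_of_eq ?_)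
        simp
    _ = _ := (Finset.sum_mul ..).symm

variable [IsLocalRing R]

/-- In a local ring with `h + 1` generators of the maximal ideal, an element outside `m ^ (j + 1)`
cuts out a quotient whose colengths are at most `j * monCount h N`. -/
theorem length_quotient_span_sup_pow_le (x : Fin (h + 1) → R)
    (hx : Ideal.span (Set.range x) = maximalIdeal R) {g : R} {j : ℕ}
    (hg : g ∈ maximalIdeal R ^ j) (hg' : g ∉ maximalIdeal R ^ (j + 1)) (N : ℕ) :
    Module.length R (R ⧸ (Ideal.span {g} ⊔ maximalIdeal R ^ N)) ≤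
      ((j * monCount h N : ℕ) : ℕ∞) := by
  classical
  let a : ℕ → R := fun _ => 1
  set K := Ideal.span {g}
  have hlay0 : lay x a 0 = maximalIdeal R := by simp [lay, hx]
  have hL : lay x a 1 = ⊤ := by
    rw [lay_succ]
    simp [a]
  have hm : ∀ c ∈ maximalIdeal R, c * a 0 ∈ lay x a 0 := fun c hc => by
    rw [hlay0]; simpa [a] using hc
  have hflK : ∀ i, flK x a K i 0 = maximalIdeal R ^ (i + 1) ⊔ K := fun i => by
    rw [flK, fl_zero, hx]
  obtain ⟨w, hw⟩ : ∃ w : (Fin (h + 1) → ℕ) → R, ∑ γ ∈ expo (h + 1) j, w γ * mon x γ = g := by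
    have h1 : g ∈ Ideal.span (mon x '' (expo (h + 1) j : Set (Fin (h + 1) → ℕ))) :=
      span_pow_le x j (by rwa [hx])
    obtain ⟨w, hw⟩ := (Submodule.mem_span_image_finset_iff_exists_fun R).1 h1
    refine ⟨fun γ => if hγ : γ ∈ expo (h + 1) j then w ⟨γ, hγ⟩ else 0, ?_⟩
    rw [← hw, ← Finset.sum_attach]
    refine Finset.sum_congr rfl fun γ _ => ?_
    simp [γ.2]
  obtain ⟨γ₀, hγ₀, hwγ₀⟩ : ∃ γ ∈ expo (h + 1) j, w γ ∉ maximalIdeal R := by
    by_contra hcon
    simp only [not_exists, not_and, not_not] at hcon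
    refine hg' ?_
    rw [← hw, pow_succ']
    exact Ideal.sum_mem _ fun γ hγ =>
      Ideal.mul_mem_mul (hcon γ hγ) (hx ▸ mon_mem_pow x hγ)
  obtain ⟨α₀, hα₀, hmin⟩ := ((expo (h + 1) j).filter fun γ => w γ ∉ maximalIdeal R).exists_min_image
    (fun γ => toLex γ) ⟨γ₀, Finset.mem_filter.2 ⟨hγ₀, hwγ₀⟩⟩
  obtain ⟨hα₀D, hα₀w⟩ := Finset.mem_filter.1 hα₀
  have hlayer : ∀ i, Module.length R (Submodule.map (flK x a K i 0).mkQ (flK x a K i 1)) ≤
      (((expo (h + 1) i).filter fun α => ∃ k, α k < α₀ k).card : ℕ∞) := by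
    intro i
    refine layerK_le_card x a hm _ (Finset.filter_subset _ _) ?_
    set G := Ideal.span ((fun β => a 0 * mon x β) ''
      (((expo (h + 1) i).filter fun α => ∃ k, α k < α₀ k) : Set (Fin (h + 1) → ℕ))) ⊔
        flK x a K i 0
    suffices ∀ (k : ℕ) (α : Fin (h + 1) → ℕ), α ∈ expo (h + 1) i →
        ((expo (h + 1) i).filter fun β => toLex α < toLex β).card < k → a 0 * mon x α ∈ G from
      fun α hα => this _ α hα (Nat.lt_succ_self _)
    intro k
    induction k with
    | zero => intro α _ h; omega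
    | succ k ih =>
      intro α hα hk
      by_cases hlo : ∃ l, α l < α₀ l
      · exact Ideal.mem_sup_left (Ideal.subset_span ⟨α, Finset.mem_filter.2 ⟨hα, hlo⟩, rfl⟩)
      simp only [not_exists, not_lt] at hlo
      set b : Fin (h + 1) → ℕ := α - α₀
      have hαb : α₀ + b = α := funext fun l => by simp [b]; have := hlo l; omega
      have hsum : j + ∑ l, b l = i := by
        rw [← mem_expo.1 hα, ← mem_expo.1 hα₀D, ← hαb, ← Finset.sum_add_distrib]
        rfl
      have hshift : ∀ γ ∈ expo (h + 1) j, γ + b ∈ expo (h + 1) i := fun γ hγ => by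
        rw [mem_expo] at hγ ⊢
        rw [← hsum, ← hγ, ← Finset.sum_add_distrib]
        rfl
      have htot : ∑ γ ∈ expo (h + 1) j, w γ * (a 0 * mon x (γ + b)) ∈ G := by
        refine Ideal.mem_sup_right (Ideal.mem_sup_right ?_)
        have : ∑ γ ∈ expo (h + 1) j, w γ * (a 0 * mon x (γ + b)) = g * mon x b := by
          rw [← hw, Finset.sum_mul]
          refine Finset.sum_congr rfl fun γ _ => ?_
          simp [a, mon_add, mul_assoc]
        rw [this]
        exact Ideal.mul_mem_right _ _ (Ideal.mem_span_singleton_self g)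
      have hrest : ∑ γ ∈ (expo (h + 1) j).erase α₀, w γ * (a 0 * mon x (γ + b)) ∈ G := by
        refine Ideal.sum_mem _ fun γ hγ => ?_
        obtain ⟨hne, hγD⟩ := Finset.mem_erase.1 hγ
        by_cases hwγ : w γ ∈ maximalIdeal R
        · exact Ideal.mem_sup_right (Ideal.mem_sup_left (mul_mem_fl x a hm (hshift γ hγD) hwγ))
        refine Ideal.mul_mem_left _ _ (ih _ (hshift γ hγD) ?_)
        have hlt : toLex α < toLex (γ + b) := by
          obtain ⟨l, hl, hl'⟩ : toLex α₀ < toLex γ := lt_of_le_of_ne
            (hmin γ (Finset.mem_filter.2 ⟨hγD, hwγ⟩)) fun he => hne (toLex.injective he).symm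
          rw [← hαb]
          refine ⟨l, fun l' hl'' => ?_, ?_⟩
          · have := hl l' hl''
            simp only [Pi.toLex_apply, Pi.add_apply] at this ⊢
            omega
          · simp only [Pi.toLex_apply, Pi.add_apply] at hl' ⊢
            omega
        refine lt_of_lt_of_le (Finset.card_lt_card ?_) (Nat.lt_succ_iff.1 hk)
        refine (Finset.ssubset_iff_of_subset fun β hβ => ?_).2 ⟨γ + b, ?_, ?_⟩
        · simp only [Finset.mem_filter] at hβ ⊢
          exact ⟨hβ.1, hlt.trans hβ.2⟩
        · exact Finset.mem_filter.2 ⟨hshift γ hγD, hlt⟩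
        · exact fun hh => lt_irrefl _ (Finset.mem_filter.1 hh).2
      rw [← Finset.add_sum_erase _ _ hα₀D, Ideal.add_mem_iff_left _ hrest, hαb] at htot
      exact (Ideal.unit_mul_mem_iff_mem G (of_not_not hα₀w)).1 htot
  have hlen := length_quotient_flK x a hL K N
  rw [hx, Finset.sum_range_one, sup_comm] at hlen
  rw [hlen]
  refine (Finset.sum_le_sum fun i _ => hlayer i).trans ?_
  rw [← Nat.cast_sum, Nat.cast_le]
  calc ∑ i ∈ Finset.range N, ((expo (h + 1) i).filter fun α => ∃ k, α k < α₀ k).card
      = (((Finset.range N).biUnion (expo (h + 1))).filter fun α => ∃ k, α k < α₀ k).card := by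
        rw [Finset.filter_biUnion, Finset.card_biUnion]
        intro u _ v _ huv
        simp only [Function.onFun, Finset.disjoint_left, Finset.mem_filter, mem_expo]
        intro α h1 h2
        exact huv (h1.1.symm.trans h2.1)
    _ ≤ (∑ k, α₀ k) * monCount h N := card_small_exponents_le N α₀
    _ = j * monCount h N := by rw [mem_expo.1 hα₀D]

end Vale.Agent.P202.Mixed
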