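import Vale.Agent.P202.Mixed.Defs
import Vale.Agent.P202.Mixed.Source.Series
import Mathlib.RingTheory.MvPowerSeries.Expand

/-!
# P202 mixed characteristic, reductions: semicontinuity along primes containing `p`

A series with constant term `p ^ D` times a unit lies, away from a prime containing `p`, in no
power of that prime beyond the `D`-th; the proof uses a `p`-derivation of the power series ring.
-/

noncomputable section

namespace Vale.Agent.P202.Mixed

open IsLocalRing

universe u

variable {p : ℕ} [Fact p.Prime] {C : Type u} [CommRing C] [IsLocalRing C]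

/-- A series with all coefficients divisible by `p` is divisible by `p`. -/
theorem natCast_dvd_of_coeff {σ : Type*} {F : MvPowerSeries σ C}
    (h : ∀ t, (p : C) ∣ MvPowerSeries.coeff t F) : (p : MvPowerSeries σ C) ∣ F := by
  choose q hq using h
  let Q : MvPowerSeries σ C := q
  refine ⟨Q, ?_⟩
  ext t
  rw [← map_natCast (MvPowerSeries.C : C →+* MvPowerSeries σ C), MvPowerSeries.coeff_C_mul, hq]
  rfl

/-- A `p`-derivation of power series over a Cohen ring. -/
theorem exists_pDerivation (hC : IsCohen p C) (n : ℕ) :
    ∃ (φ : MvPowerSeries (Fin n) C →+* MvPowerSeries (Fin n) C)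
      (δ : MvPowerSeries (Fin n) C → MvPowerSeries (Fin n) C) (f : C →+* C),
      (∀ F, φ F = F ^ p + (p : MvPowerSeries (Fin n) C) * δ F) ∧
      (∀ F, MvPowerSeries.constantCoeff (φ F) = f (MvPowerSeries.constantCoeff F)) := by
  have := hC.complete
  have hp : p.Prime := Fact.out
  have : CharP (ResidueField C) p := by
    refine (CharP.charP_iff_prime_eq_zero hp).2 ?_
    rw [← map_natCast (residue C), residue_eq_zero_iff, hC.max_eq]
    exact Ideal.mem_span_singleton_self _
  obtain ⟨f, -, hf⟩ := hC.exists_hom C (frobenius (ResidueField C) p)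
  let φ : MvPowerSeries (Fin n) C →+* MvPowerSeries (Fin n) C :=
    (MvPowerSeries.map f).comp (MvPowerSeries.expand p hp.ne_zero).toRingHom
  have hdvd : ∀ F, (p : MvPowerSeries (Fin n) C) ∣ φ F - F ^ p := by
    intro F
    have hres : MvPowerSeries.map (residue C) (φ F) = MvPowerSeries.map (residue C) (F ^ p) := by
      show MvPowerSeries.map (residue C) (MvPowerSeries.map f (MvPowerSeries.expand p hp.ne_zero F)) = _
      rw [MvPowerSeries.map_map, show (residue C).comp f =
          (frobenius (ResidueField C) p).comp (residue C) from RingHom.ext hf,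
        ← MvPowerSeries.map_map, MvPowerSeries.map_expand,
        MvPowerSeries.map_frobenius_expand p hp.ne_zero, map_pow]
    refine natCast_dvd_of_coeff fun t => ?_
    rw [← Ideal.mem_span_singleton, ← hC.max_eq, ← residue_eq_zero_iff, map_sub, map_sub,
      ← MvPowerSeries.coeff_map, ← MvPowerSeries.coeff_map, hres, sub_self]
  choose δ hδ using hdvd
  refine ⟨φ, δ, f, fun F => ?_, fun F => ?_⟩
  · rw [← hδ]
    ring
  · show MvPowerSeries.constantCoeff (MvPowerSeries.map f (MvPowerSeries.expand p hp.ne_zero F)) = _
    rw [MvPowerSeries.constantCoeff_map, MvPowerSeries.constantCoeff_expand]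

/-- A product, away from a prime containing `p`, lies in no power of the prime beyond the order of
the constant term at `p`. -/
theorem le_of_mul_mem_pow (hC : IsCohen p C) {n : ℕ} (P : Ideal (MvPowerSeries (Fin n) C))
    [P.IsPrime] (hp : (p : MvPowerSeries (Fin n) C) ∈ P) {g : MvPowerSeries (Fin n) C} {D : ℕ}
    (hg : ∃ u : Cˣ, MvPowerSeries.constantCoeff g = (p : C) ^ D * (u : C)) {j : ℕ}
    {s : MvPowerSeries (Fin n) C} (hs : s ∉ P) (hsg : s * g ∈ P ^ j) : j ≤ D := by
  obtain ⟨φ, δ, f, hφ, hφc⟩ := exists_pDerivation hC n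
  have hp2 : 2 ≤ p := (Fact.out : p.Prime).two_le
  have := hC.isDomain
  set π := (p : MvPowerSeries (Fin n) C)
  have hreg : ∀ x y : MvPowerSeries (Fin n) C, π * x = π * y → x = y := fun x y h => by
    ext t
    have h1 := congrArg (MvPowerSeries.coeff t) h
    simp only [π, ← map_natCast (MvPowerSeries.C : C →+* MvPowerSeries (Fin n) C),
      MvPowerSeries.coeff_C_mul] at h1
    exact mul_left_cancel₀ (by simpa using hC.pow_ne_zero' 1) h1
  have hmul : ∀ a b, δ (a * b) = a ^ p * δ b + b ^ p * δ a + π * δ a * δ b := fun a b => hreg _ _ (by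
    have h := map_mul φ a b
    rw [hφ, hφ, hφ, mul_pow] at h
    linear_combination h)
  have hadd : ∀ a b, ∃ r, δ (a + b) = δ a + δ b - a * b * r := fun a b => by
    obtain ⟨r, hr⟩ := (Commute.all a b).exists_add_pow_prime_eq (Fact.out : p.Prime)
    refine ⟨r, hreg _ _ ?_⟩
    have h := map_add φ a b
    rw [hφ, hφ, hφ, hr] at h
    linear_combination h
  -- the derivation loses at most one power
  have hδP : ∀ (i : ℕ) x, x ∈ P ^ (i + 1) → δ x ∈ P ^ i := by
    intro i
    induction i with
    | zero => simp
    | succ i ih =>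
      intro x hx
      rw [pow_succ'] at hx
      induction hx using Submodule.mul_induction_on' with
      | mem_mul_mem a ha b hb =>
        rw [hmul]
        refine add_mem (add_mem ?_ ?_) ?_
        · refine Ideal.pow_le_pow_right (m := i + 1) (n := p + i) (by omega) ?_
          rw [pow_add]
          exact Ideal.mul_mem_mul (Ideal.pow_mem_pow ha p) (ih b hb)
        · refine Ideal.mul_mem_right _ _ (Ideal.pow_le_pow_right (m := i + 1) (n := (i + 1) * p)
            (Nat.le_mul_of_pos_right _ (by omega)) ?_)
          rw [pow_mul]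
          exact Ideal.pow_mem_pow hb p
        · rw [pow_succ']
          exact Ideal.mul_mem_mul (Ideal.mul_mem_right _ _ hp) (ih b hb)
      | add a ha b hb iha ihb =>
        obtain ⟨r, hr⟩ := hadd a b
        rw [hr]
        refine sub_mem (add_mem iha ihb) (Ideal.mul_mem_right _ _ (Ideal.mul_mem_right _ _ ?_))
        rw [← pow_succ'] at ha
        exact Ideal.pow_le_pow_right (i + 1).le_succ ha
  induction D generalizing g j s with
  | zero =>
    obtain ⟨u, hu⟩ := hg
    by_contra hj
    refine hs ((Ideal.mul_unit_mem_iff_mem P (MvPowerSeries.isUnit_iff_constantCoeff.2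
      (by rw [hu, pow_zero, one_mul]; exact u.isUnit))).1 (Ideal.pow_le_self (by omega) hsg))
  | succ D ih =>
    rcases Nat.eq_zero_or_pos j with rfl | hj
    · exact Nat.zero_le _
    obtain ⟨i, rfl⟩ : ∃ i, j = i + 1 := ⟨j - 1, by omega⟩
    have hsgδ := hδP i _ hsg
    have hkey : ∀ l ≤ i, ∃ s', s' ∉ P ∧ s' * δ g ∈ P ^ l := by
      intro l
      induction l with
      | zero => exact fun _ => ⟨s, hs, by simp⟩
      | succ l ihl =>
        intro hl
        obtain ⟨s', hs', hs'g⟩ := ihl (by omega)
        refine ⟨s' * s ^ p * s ^ p, ?_, ?_⟩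
        · intro h
          rcases Ideal.IsPrime.mem_or_mem inferInstance h with h | h
          · rcases Ideal.IsPrime.mem_or_mem inferInstance h with h | h
            · exact hs' h
            · exact hs (Ideal.IsPrime.mem_of_pow_mem inferInstance p h)
          · exact hs (Ideal.IsPrime.mem_of_pow_mem inferInstance p h)
        · rw [show s' * s ^ p * s ^ p * δ g = s' * s ^ p * δ (s * g) - s' * δ s * (s * g) ^ p -
              π * (s' * δ g) * (s ^ p * δ s) by rw [hmul, mul_pow]; ring]
          refine sub_mem (sub_mem (Ideal.mul_mem_left _ _ (Ideal.pow_le_pow_right hl hsgδ))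
            (Ideal.mul_mem_left _ _ (Ideal.pow_le_pow_right ?_
              (by rw [pow_mul]; exact Ideal.pow_mem_pow hsg p :
                (s * g) ^ p ∈ P ^ ((i + 1) * p)))))
            (Ideal.mul_mem_right _ _ ?_)
          · exact (show l + 1 ≤ i + 1 by omega).trans (Nat.le_mul_of_pos_right _ (by omega))
          · rw [pow_succ']
            exact Ideal.mul_mem_mul hp hs'g
    obtain ⟨s', hs', hs'g⟩ := hkey i le_rfl
    refine Nat.succ_le_succ (ih ?_ hs' hs'g)
    obtain ⟨u, hu⟩ := hg
    set k := (D + 1) * (p - 1)
    have hk : k ≠ 0 := Nat.mul_ne_zero (by omega) (by omega)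
    have hunit : IsUnit (f (u : C) - (p : C) ^ k * (u : C) ^ p) := by
      by_contra h
      have h2 : (p : C) ^ k * (u : C) ^ p ∈ maximalIdeal C := by
        rw [hC.max_eq]
        exact Ideal.mul_mem_right _ _ (Ideal.pow_mem_of_mem _ (Ideal.mem_span_singleton_self _) _
          (Nat.pos_of_ne_zero hk))
      have h3 := add_mem ((mem_maximalIdeal _).2 h) h2
      rw [sub_add_cancel] at h3
      exact (mem_maximalIdeal _).1 h3 (u.isUnit.map f)
    refine ⟨hunit.unit, mul_left_cancel₀ (a := (p : C)) (by simpa using hC.pow_ne_zero' 1) ?_⟩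
    have h := congrArg MvPowerSeries.constantCoeff (hφ g)
    rw [hφc, hu, map_mul, map_pow, map_natCast, map_add, map_mul, map_pow, hu, map_natCast,
      mul_pow, ← pow_mul, show (D + 1) * p = D + 1 + k by
        show (D + 1) * p = D + 1 + (D + 1) * (p - 1)
        rw [add_comm (D + 1), ← Nat.mul_succ, show (p - 1).succ = p by omega], pow_add] at h
    rw [IsUnit.unit_spec]
    linear_combination -h

end Vale.Agent.P202.Mixed
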