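import Vale.Agent.P202.Mixed.Interface
import Vale.Agent.P202.Mixed.Reduce.Pieces
import Vale.Agent.P202.Mixed.Reduce.RegularLoc
import Vale.Agent.P202.Mixed.Reduce.Generators
import Vale.Agent.P202.Mixed.Reduce.Semi
import Vale.Agent.P202.Mixed.Source.Lower
import Vale.Agent.P202.Reduce.CutBound
import Vale.Agent.P202.Reduce.CoeffField

/-!
# P202 mixed characteristic: localisation of complete domains at primes containing `p`
-/

noncomputable section

namespace Vale.Agent.P202.Mixed

open IsLocalRing Filter Topology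
open scoped ENNReal

universe u

/-- The upper bound for the localisation from one free generator and a colength bound. -/
theorem limsup_hsSeq_atPrime_le_mul {V S : Type*} [CommRing V] [IsNoetherianRing V] [IsDomain V]
    [CommRing S] [IsNoetherianRing S] [Algebra V S] [Module.Finite V S] (c : V) (hc0 : c ≠ 0)
    (hc : ∀ s : S, c • s ∈ (algebraMap V S).range) (P : Ideal S) [P.IsPrime] (q : Ideal V)
    [q.IsPrime] (hq : q = P.comap (algebraMap V S)) {j : ℕ}
    (hlen : ∀ N, Module.length (Localization.AtPrime q)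
      (Localization.AtPrime q ⧸ maximalIdeal (Localization.AtPrime q) ^ N) ≤
        ((j * monCount (dimNat (Localization.AtPrime P)) N : ℕ) : ℕ∞))
    (hdim : dimNat (Localization.AtPrime q) ≤ dimNat (Localization.AtPrime P)) :
    limsup (hsSeq (Localization.AtPrime P)) atTop ≤ (j : ℝ≥0∞) := by
  set h := dimNat (Localization.AtPrime P)
  let f : (Fin 1 → V) →ₗ[V] S := (Algebra.linearMap V S).comp (LinearMap.proj 0)
  have hc' : ∀ s : S, c • s ∈ LinearMap.range f := fun s => by
    obtain ⟨w, hw⟩ := hc s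
    exact ⟨fun _ => w, hw⟩
  obtain ⟨μ, hμ⟩ := exists_length_atPrime_le f c hc' P q hq
  have hc0' : algebraMap V (Localization.AtPrime q) c ≠ 0 := fun h0 =>
    hc0 (IsLocalization.injective (Localization.AtPrime q) q.primeCompl_le_nonZeroDivisors
      (h0.trans (map_zero _).symm))
  obtain ⟨C, hC⟩ := exists_length_cut_le hc0' hdim
  set e : ℕ → ℕ∞ := fun N => Module.length (Localization.AtPrime q) (Localization.AtPrime q ⧸
    (Ideal.span {algebraMap V (Localization.AtPrime q) c} ⊔
      maximalIdeal (Localization.AtPrime q) ^ N))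
  have hb : ∀ N : ℕ, hsSeq (Localization.AtPrime P) N ≤
      (j : ℝ≥0∞) * (((N + h : ℕ) : ℝ≥0∞) ^ h / (N : ℝ≥0∞) ^ h) +
        ((h.factorial * μ : ℕ) : ℝ≥0∞) * ((e N : ℕ∞) : ℝ≥0∞) / (N : ℝ≥0∞) ^ h := by
    intro N
    have h1 := (hμ N).trans (add_le_add (mul_le_mul' le_rfl (hlen N)) le_rfl)
    rw [Nat.cast_one, one_mul] at h1
    have h2 := ENat.toENNReal_le.2 h1
    simp only [ENat.toENNReal_mul, ENat.toENNReal_add, ENat.toENNReal_coe] at h2
    rw [hsSeq, ← mul_div_assoc, ← ENNReal.add_div]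
    refine ENNReal.div_le_div_right ((mul_le_mul' le_rfl h2).trans ?_) _
    rw [mul_add]
    refine add_le_add ?_ (le_of_eq (by push_cast; ring))
    calc (h.factorial : ℝ≥0∞) * ((j * monCount h N : ℕ) : ℝ≥0∞)
        = (j : ℝ≥0∞) * ((h.factorial * monCount h N : ℕ) : ℝ≥0∞) := by push_cast; ring
      _ ≤ _ := mul_le_mul' le_rfl (by exact_mod_cast factorial_mul_monCount_le h N)
  refine (limsup_le_limsup (Eventually.of_forall hb)).trans_eq ?_
  have hlim := (ENNReal.Tendsto.const_mul (tendsto_add_pow_div_pow h h) (Or.inl one_ne_zero)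
    (a := (j : ℝ≥0∞))).add (tendsto_err hC (h.factorial * μ))
  rw [mul_one, add_zero] at hlim
  exact hlim.limsup_eq

/-- The dimension of a quotient by a pulled back ideal. -/
theorem dimNat_quotient_comap {A S : Type*} [CommRing A] [CommRing S] (f : A →+* S)
    (hf : Function.Surjective f) (q : Ideal S) : dimNat (A ⧸ q.comap f) = dimNat (S ⧸ q) := by
  have hk : RingHom.ker ((Ideal.Quotient.mk q).comp f) = q.comap f := by
    rw [← RingHom.comap_ker, Ideal.mk_ker]
  have e := RingHom.quotientKerEquivOfSurjective (f := (Ideal.Quotient.mk q).comp f)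
    (Ideal.Quotient.mk_surjective.comp hf)
  rw [dimNat, dimNat, ← ringKrullDim_eq_of_ringEquiv e,
    ringKrullDim_eq_of_ringEquiv (Ideal.quotEquivOfEq hk)]

variable {p : ℕ} {C : Type u} [CommRing C] [IsLocalRing C]
  {B : Type u} [CommRing B] [IsLocalRing B] [IsNoetherianRing B] {d : ℕ}
  [Algebra (MvPowerSeries (Fin (d + 1)) C) B] {D : ℕ}

omit [IsNoetherianRing B] in
/-- The multiplier of a model is not zero in a domain. -/
theorem Model.h_ne_zero [IsDomain B] (hC : IsCohen p C) (Mo : Model p B (C := C) (d := d) D) :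
    Mo.h ≠ 0 := by
  intro h0
  set P := MvPowerSeries (Fin (d + 1)) C
  have hmem : (p : P) ^ Mo.b * Mo.G ∈ Ideal.span {Mo.g} := by
    rw [← Mo.ker_eq]; exact h0
  have hD : 1 ≤ D := by
    by_contra hD
    obtain ⟨u, hu⟩ := Mo.g_const
    have hD0 : D = 0 := by omega
    have hu : MvPowerSeries.constantCoeff Mo.g = (u : C) := by
      rw [hu, show (p : C) ^ D = 1 by rw [hD0, pow_zero], one_mul]
    have hg : IsUnit Mo.g := MvPowerSeries.isUnit_iff_constantCoeff.2 (hu ▸ u.isUnit)
    have : algebraMap P B Mo.g = 0 :=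
      RingHom.mem_ker.1 (by rw [Mo.ker_eq]; exact Ideal.mem_span_singleton_self _)
    exact not_isUnit_zero (this ▸ hg.map (algebraMap P B))
  obtain ⟨c₀, hc₀⟩ := Mo.small
  set k := (d + 1).factorial * c₀ * 2 ^ (d + 1)
  have h1 := hc₀ (k + 1)
  rw [show Ideal.span {Mo.g, (p : P) ^ Mo.b * Mo.G} = Ideal.span {Mo.g} by
    rw [Ideal.span_insert]
    exact sup_eq_left.2 ((Ideal.span_singleton_le_iff_mem _).2 hmem)] at h1
  have h2 := (mul_le_mul' (le_length_hypersurface hC Mo.g_const (k + 1)) le_rfl).trans h1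
  rw [← Nat.cast_mul, ← Nat.cast_mul, Nat.cast_le] at h2
  have h3 : (k + 1) ^ (d + 1) * (k + 2) ≤ (k + 1) ^ (d + 1) * k := by
    calc (k + 1) ^ (d + 1) * (k + 2)
        ≤ (d + 1).factorial * (monCount (d + 1) (k + 1) * D) * (k + 2) := by
          refine Nat.mul_le_mul_right _ ((pow_le_factorial_mul_monCount _ k).trans ?_)
          exact Nat.mul_le_mul_left _ (Nat.le_mul_of_pos_right _ hD)
      _ ≤ (d + 1).factorial * (c₀ * (2 * (k + 1)) ^ (d + 1)) := by
          rw [mul_assoc]
          refine Nat.mul_le_mul_left _ (h2.trans ?_)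
          exact Nat.mul_le_mul_left _ (Nat.pow_le_pow_left (by omega) _)
      _ = (k + 1) ^ (d + 1) * k := by rw [mul_pow]; ring
  have := Nat.le_of_mul_le_mul_left h3 (Nat.pow_pos (Nat.succ_pos k))
  omega

/-- The degree of a model bounds the multiplicity of the localisations at primes containing `p`. -/
theorem Model.limsup_hsSeq_atPrime_le [Fact p.Prime] [IsDomain B] [Infinite (ResidueField C)]
    (hC : IsCohen p C) (Mo : Model p B (C := C) (d := d) D)
    (P : Ideal B) [P.IsPrime] (hP : (p : B) ∈ P)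
    (hdim : d + 1 ≤ dimNat (B ⧸ P) + dimNat (Localization.AtPrime P)) :
    limsup (hsSeq (Localization.AtPrime P)) atTop ≤ (D : ℝ≥0∞) := by
  have := hC.noetherian
  have := hC.isDomain
  let V := MvPowerSeries (Fin (d + 1)) C
  let φ : V →+* B := algebraMap V B
  have : IsDomain V := NoZeroDivisors.to_isDomain _
  have : Module.Finite V B := Mo.finite
  set h := dimNat (Localization.AtPrime P)
  -- the hypersurface
  let K : Ideal V := RingHom.ker φ
  have : K.IsPrime := RingHom.ker_isPrime φ
  have hK : K = Ideal.span {Mo.g} := Mo.ker_eq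
  let V' := V ⧸ K
  have : IsDomain V' := Ideal.Quotient.isDomain K
  let mk : V →+* V' := Ideal.Quotient.mk K
  have : IsLocalRing V' := IsLocalRing.of_surjective' mk Ideal.Quotient.mk_surjective
  let φ' : V' →+* B := RingHom.kerLift φ
  have hφ' : ∀ v, φ' (mk v) = φ v := fun v => RingHom.kerLift_mk φ v
  let : Algebra V' B := φ'.toAlgebra
  have hfin' : φ'.Finite := by
    refine RingHom.Finite.of_comp_finite (f := mk) ?_
    rw [show φ'.comp mk = φ from RingHom.ext hφ']
    exact RingHom.finite_algebraMap.2 Mo.finite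
  have : Module.Finite V' B := hfin'
  have : P.IsPrime := inferInstance
  set Q : Ideal V := P.comap φ
  set q : Ideal V' := P.comap (algebraMap V' B) with hq
  have hQq : Q = q.comap mk := by
    ext v
    simp only [Q, hq, Ideal.mem_comap]
    rw [show algebraMap V' B (mk v) = φ v from hφ' v]
  have hQp : (p : V) ∈ Q := by rw [Ideal.mem_comap, map_natCast]; exact hP
  -- dimensions
  have : IsLocalRing (B ⧸ P) :=
    IsLocalRing.of_surjective' (Ideal.Quotient.mk P) Ideal.Quotient.mk_surjective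
  have : IsLocalRing (V ⧸ Q) :=
    IsLocalRing.of_surjective' (Ideal.Quotient.mk Q) Ideal.Quotient.mk_surjective
  have : IsLocalRing (V' ⧸ q) :=
    IsLocalRing.of_surjective' (Ideal.Quotient.mk q) Ideal.Quotient.mk_surjective
  have hdBV : dimNat (B ⧸ P) ≤ dimNat (V ⧸ Q) := by
    have hk : ringKrullDim (B ⧸ P) ≤ ringKrullDim (V ⧸ Q) := by
      refine ringKrullDim_le_of_isIntegral (Ideal.quotientMap P φ le_rfl)
        (RingHom.Finite.to_isIntegral ?_)
      refine RingHom.Finite.of_comp_finite (f := Ideal.Quotient.mk Q) ?_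
      rw [Ideal.quotientMap_comp_mk]
      exact (RingHom.Finite.of_surjective _ Ideal.Quotient.mk_surjective).comp
        (RingHom.finite_algebraMap.2 Mo.finite)
    rw [coe_dimNat (B ⧸ P), coe_dimNat (V ⧸ Q)] at hk
    exact_mod_cast hk
  have hd' : d + 1 ≤ dimNat (V ⧸ Q) + h := by omega
  obtain ⟨x, hx⟩ := exists_generators_atPrime hC Q hQp (h := h) hd' 
  have hg0 : Mo.g ≠ 0 := fun h0 => by
    obtain ⟨u, hu⟩ := Mo.g_const
    rw [h0, map_zero] at hu
    exact mul_ne_zero (hC.pow_ne_zero' D) u.ne_zero hu.symm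
  have hdq : dimNat (Localization.AtPrime q) ≤ h := by
    have hs := ringKrullDim_quotient_succ_le_of_forall_notMem (r := Mo.g) (fun q' hq' hgq => hg0 (by
      rw [IsDomain.minimalPrimes_eq_singleton_bot, Set.mem_singleton_iff] at hq'
      simpa [hq'] using hgq))
    rw [ringKrullDim_eq_of_ringEquiv (Ideal.quotEquivOfEq hK.symm)] at hs
    have hs' := hs.trans (ringKrullDim_series_le hC (d + 1))
    have h1 := height_add_ringKrullDim_quotient_le q
    rw [← IsLocalization.AtPrime.ringKrullDim_eq_height q (Localization.AtPrime q),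
      coe_dimNat (Localization.AtPrime q), coe_dimNat (V' ⧸ q), coe_dimNat V'] at h1
    rw [coe_dimNat V'] at hs'
    have h1' : dimNat (Localization.AtPrime q) + dimNat (V' ⧸ q) ≤ dimNat V' := by exact_mod_cast h1
    have hs'' : dimNat V' + 1 ≤ d + 1 + 1 := by exact_mod_cast hs'
    have e : dimNat (V ⧸ Q) = dimNat (V' ⧸ q) := by
      rw [← dimNat_quotient_comap mk Ideal.Quotient.mk_surjective q]
      exact congrArg (fun I : Ideal V => dimNat (V ⧸ I)) hQq
    omega
  -- the order of `g` at the prime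
  let R := Localization.AtPrime Q
  have : IsDomain R := IsLocalization.isDomain_localization Q.primeCompl_le_nonZeroDivisors
  let gR : R := algebraMap V R Mo.g
  have hgR : gR ≠ 0 := fun h0 => hg0 (IsLocalization.injective R Q.primeCompl_le_nonZeroDivisors
    (h0.trans (map_zero _).symm))
  obtain ⟨j, hj, hj'⟩ : ∃ j, gR ∈ maximalIdeal R ^ j ∧ gR ∉ maximalIdeal R ^ (j + 1) := by
    classical
    have hex : ∃ j, gR ∉ maximalIdeal R ^ j := by
      by_contra hcon
      simp only [not_exists, not_not] at hcon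
      have : gR ∈ ⨅ i, maximalIdeal R ^ i := Ideal.mem_iInf.2 hcon
      rw [Ideal.iInf_pow_eq_bot_of_isLocalRing _ (maximalIdeal.isMaximal R).ne_top] at this
      exact hgR this
    have h0 : Nat.find hex ≠ 0 := fun e => Nat.find_spec hex (by simp [e])
    refine ⟨Nat.find hex - 1, not_not.1 (Nat.find_min hex (by omega)), ?_⟩
    rw [Nat.sub_add_cancel (Nat.pos_of_ne_zero h0)]
    exact Nat.find_spec hex
  have hjD : j ≤ D := by
    rw [← Localization.AtPrime.map_eq_maximalIdeal, ← Ideal.map_pow,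
      IsLocalization.algebraMap_mem_map_algebraMap_iff Q.primeCompl] at hj
    obtain ⟨s, hs, hsg⟩ := hj
    exact le_of_mul_mem_pow hC Q hQp Mo.g_const hs hsg
  -- the hypersurface at the prime
  let ψ : R →+* Localization.AtPrime q := Localization.localRingHom Q q mk hQq
  have hψ : Function.Surjective ψ := fun y => by
    obtain ⟨a, s, rfl⟩ := IsLocalization.exists_mk'_eq q.primeCompl y
    obtain ⟨a, rfl⟩ := Ideal.Quotient.mk_surjective a
    obtain ⟨⟨s, hs⟩, rfl⟩ : ∃ t : Q.primeCompl,
        (⟨mk t, fun ht => t.2 ((SetLike.ext_iff.1 hQq t.1).2 ht)⟩ : q.primeCompl) = s := by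
      obtain ⟨t, ht⟩ := Ideal.Quotient.mk_surjective (s : V')
      refine ⟨⟨t, fun htQ => s.2 ?_⟩, Subtype.ext ht⟩
      rw [← ht]
      exact (SetLike.ext_iff.1 hQq t).1 htQ
    exact ⟨IsLocalization.mk' R a (⟨s, hs⟩ : Q.primeCompl),
      Localization.localRingHom_mk' Q q mk hQq a ⟨s, hs⟩⟩
  have hψg : Ideal.span {gR} ≤ RingHom.ker ψ := by
    rw [Ideal.span_singleton_le_iff_mem, RingHom.mem_ker, Localization.localRingHom_to_map,
      show mk Mo.g = 0 from Ideal.Quotient.eq_zero_iff_mem.2
        (hK ▸ Ideal.mem_span_singleton_self _), map_zero]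
  have hlen : ∀ N, Module.length (Localization.AtPrime q)
      (Localization.AtPrime q ⧸ maximalIdeal (Localization.AtPrime q) ^ N) ≤
        ((j * monCount h N : ℕ) : ℕ∞) := fun N => by
    have heq := length_sup_pow_eq (A := R) (B := Localization.AtPrime q) ψ hψ N
    refine heq.symm.trans_le ?_
    exact (length_quotient_mono (sup_le_sup_right hψg _)).trans
      (length_quotient_span_sup_pow_le x hx hj hj' N)
  refine (limsup_hsSeq_atPrime_le_mul (mk ((p : V) ^ Mo.b * Mo.G)) ?_ ?_ P q rfl hlen hdq).trans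
    (by exact_mod_cast hjD)
  · intro h0
    refine Mo.h_ne_zero hC ?_
    show φ _ = 0
    rw [← hφ', h0, map_zero]
  · intro s
    obtain ⟨π, hπ⟩ := Mo.cokilled s
    refine ⟨mk π, ?_⟩
    rw [Algebra.smul_def]
    show φ' (mk π) = φ' (mk _) * s
    rw [hφ', hφ']
    exact hπ

/-- Localisation of a complete domain at a prime containing `p` does not raise the
multiplicity. -/
theorem nagata_domain (hC : CohenStatement.{u}) (hS : SourceStatement.{u}) (p : ℕ) [Fact p.Prime]
    (B : Type u) [CommRing B] [IsLocalRing B] [IsNoetherianRing B] [IsDomain B]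
    [IsAdicComplete (maximalIdeal B) B] [IsAlgClosed (ResidueField B)] (P : Ideal B) [P.IsPrime]
    (hP : (p : B) ∈ P)
    (hdim : dimNat B ≤ dimNat (B ⧸ P) + dimNat (Localization.AtPrime P)) :
    limsup (hsSeq (Localization.AtPrime P)) atTop ≤ liminf (hsSeq B) atTop := by
  have : Infinite (ResidueField B) := inferInstance
  by_cases hp0 : (p : B) = 0
  · have : CharP B p := (CharP.charP_iff_prime_eq_zero (Fact.out : p.Prime)).2 hp0
    obtain ⟨τ, hτ⟩ := exists_coefficientField' B p
    exact Vale.Agent.P202.limsup_hsSeq_atPrime_le τ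
      ⟨RingHom.injective _, fun a => ⟨a, hτ a⟩⟩ P hdim
  have hpm : (p : B) ∈ maximalIdeal B := IsLocalRing.le_maximalIdeal (Ideal.IsPrime.ne_top
    (I := P) inferInstance) hP
  have hd0 : dimNat B ≠ 0 := fun h0 => by
    have h1 : ringKrullDim B ≤ 0 := by rw [coe_dimNat B, h0]; simp
    obtain ⟨r, hr⟩ := exists_pow_le_of_ringKrullDim_le_zero (⊥ : Ideal B)
      ((ringKrullDim_eq_of_ringEquiv (RingEquiv.quotientBot B)).trans_le h1)
    exact hp0 (pow_eq_zero_iff'.1 (Ideal.mem_bot.1 (hr (Ideal.pow_mem_pow hpm r)))).1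
  obtain ⟨d, hd⟩ : ∃ d, dimNat B = d + 1 := ⟨dimNat B - 1, by omega⟩
  have : CharP (ResidueField B) p := by
    refine (CharP.charP_iff_prime_eq_zero (Fact.out : p.Prime)).2 ?_
    rw [← map_natCast (residue B)]
    exact (residue_eq_zero_iff _).2 hpm
  obtain ⟨C, iC, iCl, hCo, ⟨e⟩⟩ := hC p (ResidueField B)
  have : Infinite (ResidueField C) := Infinite.of_injective e.symm e.symm.injective
  obtain ⟨θ, hθl, hθ⟩ := hCo.exists_hom B e.toRingHom
  have hres : ∀ a, ∃ c, a - θ c ∈ maximalIdeal B := fun a => by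
    obtain ⟨c, hc⟩ := residue_surjective (e.symm (residue B a))
    refine ⟨c, ?_⟩
    rw [← residue_eq_zero_iff, map_sub, hθ, hc]
    simp
  obtain ⟨iAlg, D, -, ⟨Mo⟩, -⟩ := hS p C hCo B hp0 hpm θ hθl hres d hd
  exact (Mo.limsup_hsSeq_atPrime_le hCo P hP (hd ▸ hdim)).trans (Mo.le_liminf hCo hd hpm)

end Vale.Agent.P202.Mixed
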